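import Vale.Agent.P098.Reg.AC.Nondeg
import Vale.Agent.P098.Reg.Iface

/-! The basic properties of Lipschitz minimisers. -/

noncomputable section

namespace Vale.Agent.P098.Reg

open MeasureTheory Set Filter Topology Metric
open scoped ContDiff

theorem lmin_zero_dim {u : Pt 0 → ℝ} (h : LMin u) (x : Pt 0) : u x = 0 := by
  by_contra hne
  have hp : 0 < u x := lt_of_le_of_ne (h.nonneg x) (Ne.symm hne)
  have hball : ball x 1 = univ := eq_univ_of_forall fun y => by simp [Subsingleton.elim y x]
  have hle := h.le_energy x 1 (fun _ => 0) ⟨0, LipschitzWith.const _⟩ (fun _ => le_rfl) {x}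
    isCompact_singleton (by simp) (fun y hy => absurd (mem_singleton_iff.2 (Subsingleton.elim y x)) hy)
  have e1 : energy u x 1 = ∫ _y in ball x 1, (1 : ℝ) :=
    integral_congr_ae (Eventually.of_forall fun y => by simp [gradSq, Subsingleton.elim y x, hp])
  have e2 : energy (fun _ : Pt 0 => (0 : ℝ)) x 1 = 0 := by simp [energy, gradSq]
  rw [e1, e2, setIntegral_const, smul_eq_mul, mul_one] at hle
  have : 0 < volume.real (ball x 1) :=
    ENNReal.toReal_pos (measure_ball_pos volume x one_pos).ne' measure_ball_lt_top.ne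
  linarith

theorem basics (d : ℕ) : Basics d := by
  rcases Nat.eq_zero_or_pos d with rfl | hd
  · refine ⟨fun u h => ?_, fun u _ x _ => by simp, ⟨0, fun u h _ => ?_⟩,
      ⟨1, one_pos, fun u h x r _ _ y _ => lmin_zero_dim h y⟩, fun u h x r hr _ => ?_⟩
    · exact (contDiffOn_const (c := (0 : ℝ))).congr fun y _ => lmin_zero_dim h y
    · exact LipschitzWith.of_dist_le_mul fun y z => by simp [lmin_zero_dim h]
    · have : {y | u y = 0} ∩ ball x r = ball x r := by
        ext y; simp [lmin_zero_dim h]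
      rw [this]
      exact (measure_ball_pos volume x hr).ne'
  haveI : NeZero d := ⟨hd.ne'⟩
  have hT : ∀ {u : Pt d → ℝ}, LMin u → AC.Tame u ∧ Continuous u := fun {u} h => by
    obtain ⟨K, hK⟩ := h.lip
    exact ⟨(AC.lmin_vary h).tame, hK.continuous⟩
  refine ⟨fun u h => ((hT h).1.contDiffOn (hT h).2).mono fun y hy => ne_of_gt hy,
    fun u h x hx => (hT h).1.harmonic (hT h).2 (ne_of_gt hx), ?_, AC.nondeg d,
    fun u h x r hr hx => (hT h).1.zero_pos (hT h).2 h.nonneg hr hx⟩
  obtain ⟨K, hK⟩ := AC.lipschitz d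
  exact ⟨K, fun u h hz => hK u (hT h).1 (hT h).2 h.nonneg hz⟩

end Vale.Agent.P098.Reg
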