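import Vale.Agent.P098.Reg.AC.Basics

/-! First regularity: a homogeneous global minimiser is a homogeneous Lipschitz minimiser. -/

noncomputable section

namespace Vale.Agent.P098.Reg

open MeasureTheory Set Filter Topology Metric
open scoped ContDiff RealInnerProductSpace

variable {d : ℕ}

namespace AC

theorem iUnion_ball_nat : ⋃ n : ℕ, ball (0 : Pt d) n = univ := eq_univ_of_forall fun x => by
  obtain ⟨n, hn⟩ := exists_nat_gt ‖x‖
  exact mem_iUnion.2 ⟨n, by simpa using hn⟩

variable {u : Pt d → ℝ} {G : Pt d → Pt d}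

theorem WeakGrad.aesm (h : WeakGrad u G) : AEStronglyMeasurable u ∧ AEStronglyMeasurable G := by
  rw [← (Measure.restrict_univ (μ := (volume : Measure (Pt d)))), ← iUnion_ball_nat]
  exact ⟨aestronglyMeasurable_iUnion_iff.2 fun n => (h.1 n).1.aestronglyMeasurable,
    aestronglyMeasurable_iUnion_iff.2 fun n => (h.1 n).2.aestronglyMeasurable⟩

theorem locallyIntegrable_of_memLp {E : Type*} [NormedAddCommGroup E] {f : Pt d → E}
    (h : ∀ R, MemLp f 2 (volume.restrict (ball 0 R))) : LocallyIntegrable f := fun x => by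
  haveI : IsFiniteMeasure (volume.restrict (ball (0 : Pt d) (‖x‖ + 1))) :=
    isFiniteMeasure_restrict.2 measure_ball_lt_top.ne
  exact ⟨ball 0 (‖x‖ + 1), isOpen_ball.mem_nhds (by simp), (h (‖x‖ + 1)).integrable (by norm_num)⟩

theorem WeakGrad.wpd (h : WeakGrad u G) (i : Fin d) : WeakPd i u (fun x => G x i) := by
  have hG := locallyIntegrable_of_memLp fun R => (h.1 R).2
  refine ⟨locallyIntegrable_of_memLp fun R => (h.1 R).1, fun x => ?_, fun φ hφ hs => h.2 φ hφ hs i⟩
  obtain ⟨s, hs, hi⟩ := hG x
  exact ⟨s, hs, (EuclideanSpace.proj (𝕜 := ℝ) i).integrable_comp hi⟩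

theorem weakGrad_add (h : WeakGrad u G) {φ : Pt d → ℝ} (hφ : ContDiff ℝ ∞ φ) (hs : HasCompactSupport φ)
    (ε : ℝ) : WeakGrad (fun x => u x + ε * φ x) fun x => G x + ε • grad φ x := by
  refine ⟨fun R => ⟨(h.1 R).1.add ((hφ.continuous.memLp_of_hasCompactSupport hs).const_mul ε),
    (h.1 R).2.add (((continuous_grad hφ).memLp_of_hasCompactSupport (hasCompactSupport_grad hs)).const_smul ε)⟩,
    fun ψ hψ hψs i => ?_⟩
  have cψ : Continuous (pd i ψ) := (contDiff_pd hψ (m := 0) (by simp)).continuous
  have cφ : Continuous (pd i φ) := (contDiff_pd hφ (m := 0) (by simp)).continuous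
  have i1 : Integrable fun x => u x * pd i ψ x :=
    (WeakGrad.wpd h i).loc.integrable_smul_right_of_hasCompactSupport cψ (hasCompactSupport_pd hψs)
  have i2 : Integrable fun x => φ x * pd i ψ x :=
    (hφ.continuous.mul cψ).integrable_of_hasCompactSupport hs.mul_right
  have i3 : Integrable fun x => G x i * ψ x :=
    (WeakGrad.wpd h i).locg.integrable_smul_right_of_hasCompactSupport hψ.continuous hψs
  have i4 : Integrable fun x => pd i φ x * ψ x :=
    (cφ.mul hψ.continuous).integrable_of_hasCompactSupport hψs.mul_left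
  simp only [PiLp.add_apply, PiLp.smul_apply, grad_apply, smul_eq_mul, add_mul, mul_assoc]
  rw [integral_add i1 (i2.const_mul ε), integral_add i3 (i4.const_mul ε), integral_const_mul,
    integral_const_mul, h.2 ψ hψ hψs i, integral_mul_pd (hφ.of_le (by simp)) (hψ.of_le (by simp)) hψs i]
  ring

theorem weakGrad_down (h : WeakGrad u G) {φ : Pt d → ℝ} (hφ : ContDiff ℝ ∞ φ) (hs : HasCompactSupport φ)
    {δ : ℝ} (hδ : 0 < δ) (ε : ℝ) :
    WeakGrad (fun x => u x - ε * (φ x * cut δ (u x))) fun x => G x + ε • downW u G φ δ x := by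
  obtain ⟨hu, hG⟩ := WeakGrad.aesm h
  obtain ⟨K, hK0, hK⟩ := deriv_cut_bound δ hδ
  obtain ⟨N, hN⟩ := hφ.continuous.bounded_above_of_compact_support hs
  have hm : AEStronglyMeasurable fun x => φ x * cut δ (u x) :=
    hφ.continuous.aestronglyMeasurable.mul ((contDiff_cut (δ := δ)).continuous.comp_aestronglyMeasurable hu)
  refine ⟨fun R => ?_, fun ψ hψ hψs i => ?_⟩
  · haveI : IsFiniteMeasure (volume.restrict (ball (0 : Pt d) R)) :=
      isFiniteMeasure_restrict.2 measure_ball_lt_top.ne
    refine ⟨(h.1 R).1.sub ((MemLp.of_bound hm.restrict N (Eventually.of_forall fun x => ?_)).const_mul ε),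
      (h.1 R).2.add ((memLp_downW hδ hu hG (h.1 R).2 hφ hs).const_smul ε)⟩
    rw [norm_mul, Real.norm_of_nonneg (cut_nonneg δ (u x))]
    exact (mul_le_of_le_one_right (norm_nonneg _) (cut_le_one _ _)).trans (hN x)
  have cψ : Continuous (pd i ψ) := (contDiff_pd hψ (m := 0) (by simp)).continuous
  have cφ : Continuous (pd i φ) := (contDiff_pd hφ (m := 0) (by simp)).continuous
  have hcm : AEStronglyMeasurable fun x => cut δ (u x) :=
    (contDiff_cut (δ := δ)).continuous.comp_aestronglyMeasurable hu
  have hcut1 : LocallyIntegrable fun x => cut δ (u x) := fun x => by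
    refine ⟨closedBall x 1, closedBall_mem_nhds x one_pos, ?_⟩
    exact (integrableOn_const (C := (1 : ℝ)) measure_closedBall_lt_top.ne).mono' hcm.restrict
      (Eventually.of_forall fun y => by rw [Real.norm_of_nonneg (cut_nonneg _ _)]; exact cut_le_one _ _)
  have hcd : AEStronglyMeasurable fun x => deriv (cut δ) (u x) :=
    ((contDiff_cut (δ := δ)).continuous_deriv (by simp)).comp_aestronglyMeasurable hu
  have i1 : Integrable fun x => u x * pd i ψ x :=
    (WeakGrad.wpd h i).loc.integrable_smul_right_of_hasCompactSupport cψ (hasCompactSupport_pd hψs)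
  have i2 : Integrable fun x => cut δ (u x) * (φ x * pd i ψ x) :=
    hcut1.integrable_smul_right_of_hasCompactSupport (hφ.continuous.mul cψ) hs.mul_right
  have i2' : Integrable fun x => cut δ (u x) * (pd i φ x * ψ x) :=
    hcut1.integrable_smul_right_of_hasCompactSupport (cφ.mul hψ.continuous) hψs.mul_left
  have i3 : Integrable fun x => G x i * ψ x :=
    (WeakGrad.wpd h i).locg.integrable_smul_right_of_hasCompactSupport hψ.continuous hψs
  have i4 : Integrable fun x => deriv (cut δ) (u x) * G x i * (φ x * ψ x) := by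
    refine (((WeakGrad.wpd h i).locg.integrable_smul_right_of_hasCompactSupport (hφ.continuous.mul hψ.continuous)
      (hs.mul_right (f' := ψ))).norm.const_mul K).mono' ((hcd.mul (WeakGrad.wpd h i).locg.aestronglyMeasurable).mul
        (hφ.continuous.mul hψ.continuous).aestronglyMeasurable) (Eventually.of_forall fun x => ?_)
    simp only [norm_mul, Real.norm_eq_abs, smul_eq_mul, mul_assoc, Pi.mul_apply]
    exact mul_le_mul_of_nonneg_right (hK _) (by positivity)
  have hchain : ∫ x, cut δ (u x) * (φ x * pd i ψ x) + cut δ (u x) * (pd i φ x * ψ x)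
      = -∫ x, deriv (cut δ) (u x) * G x i * (φ x * ψ x) := by
    rw [← (WeakGrad.wpd h i).chain ((contDiff_cut (δ := δ)).of_le (by simp)) hK (hφ.mul hψ) hψs.mul_left]
    refine integral_congr_ae (Eventually.of_forall fun x => ?_)
    simp only
    rw [pd_mul (hφ.differentiable (by simp) x) (hψ.differentiable (by simp) x)]
    ring
  rw [integral_add i2 i2'] at hchain
  have e1 : ∀ x, (u x - ε * (φ x * cut δ (u x))) * pd i ψ x
      = u x * pd i ψ x - ε * (cut δ (u x) * (φ x * pd i ψ x)) := fun x => by ring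
  have e2 : ∀ x, (G x + ε • downW u G φ δ x) i * ψ x = G x i * ψ x
      - ε * (cut δ (u x) * (pd i φ x * ψ x) + deriv (cut δ) (u x) * G x i * (φ x * ψ x)) := fun x => by
    simp only [downW, PiLp.add_apply, PiLp.smul_apply, PiLp.neg_apply, grad_apply, smul_eq_mul]
    ring
  simp only [e1, e2]
  rw [integral_sub i1 (i2.const_mul ε), integral_sub i3 ((i2'.fun_add i4).const_mul ε), integral_const_mul,
    integral_const_mul, integral_add i2' i4, h.2 ψ hψ hψs i]
  linear_combination -ε * hchain

theorem vary_of_globalMin (h0 : ∀ᵐ x, 0 ≤ u x) (hG : WeakGrad u G)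
    (hmin : ∀ (c : Pt d) (R : ℝ) (v : Pt d → ℝ) (H : Pt d → Pt d), WeakGrad v H → (∀ᵐ x, 0 ≤ v x) →
      ∀ S : Set (Pt d), IsCompact S → S ⊆ ball c R → (∀ᵐ x, x ∉ S → v x = u x) →
        bernoulli u G c R ≤ bernoulli v H c R) : Vary u G := by
  refine vary_of_min h0 (WeakGrad.aesm hG).1 (WeakGrad.aesm hG).2 (WeakGrad.wpd hG)
    (fun R => (hG.1 R).2) ?_ ?_
  · intro φ hφ hs hφ0 ε hε R hR
    exact hmin 0 R _ _ (weakGrad_add hG hφ hs ε) (h0.mono fun x hx => by
      have := hφ0 x; positivity) _ hs hR (Eventually.of_forall fun x hx => by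
        simp [image_eq_zero_of_notMem_tsupport hx])
  · intro φ hφ hs hφ0 δ hδ ε hε hok R hR
    exact hmin 0 R _ _ (weakGrad_down hG hφ hs hδ ε) (h0.mono fun x hx => by
      have := hok x (u x) hx; linarith) _ hs hR (Eventually.of_forall fun x hx => by
        simp [image_eq_zero_of_notMem_tsupport hx])

theorem nonneg_of_ae {w : Pt d → ℝ} (hw : Continuous w) (h : ∀ᵐ x, 0 ≤ w x) (x : Pt d) : 0 ≤ w x := by
  by_contra hx
  exact ((isOpen_lt hw continuous_const).measure_pos volume ⟨x, not_le.1 hx⟩).ne'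
    (measure_mono_null (fun y hy => not_le.2 hy) (ae_iff.1 h))

end AC

open AC in
theorem firstReg_of_ne (d : ℕ) [NeZero d] : FirstReg d := by
  intro u ⟨h0, G, hG, hmin⟩ hom
  have T : Tame u := (vary_of_globalMin h0 hG hmin).tame
  set w := rep u
  have hwc : Continuous w := T.continuous_rep
  have huw : u =ᵐ[volume] w := T.ae_eq_rep
  have hw0 : ∀ x, 0 ≤ w x := nonneg_of_ae hwc (by filter_upwards [h0, huw] with x h1 h2; rwa [← h2])
  have hH : Homog w := by
    intro r hr
    have hq : Measure.QuasiMeasurePreserving (fun x : Pt d => r • x) volume volume := by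
      refine ⟨measurable_const_smul r, ?_⟩
      rw [Measure.map_addHaar_smul volume hr.ne']
      exact Measure.smul_absolutelyContinuous
    have : (fun x => w (r • x)) =ᵐ[volume] fun x => r * w x := by
      filter_upwards [hom r hr, huw, hq.ae_eq huw] with x h1 h2 h3
      simp only [Function.comp_apply] at h3
      rw [← h3, h1, h2]
    exact congrFun (Continuous.ae_eq_iff_eq volume (hwc.comp (continuous_const_smul r))
      (continuous_const.mul hwc) |>.1 this)
  have hzero : ∃ z, w z = 0 := ⟨0, by have := hH 2 two_pos 0; rw [smul_zero] at this; linarith⟩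
  obtain ⟨K, hK⟩ := AC.lipschitz d
  have hL : LipschitzWith K w := hK w (T.congr huw) hwc hw0 hzero
  have hGw : G =ᵐ[volume] grad w := by
    have hi : ∀ i : Fin d, (fun x => G x i) =ᵐ[volume] fun x => grad w x i := fun i => by
      refine ae_eq_of_integral_contDiff_smul_eq (WeakGrad.wpd hG i).locg (weakPd_lip hL i).locg
        fun φ hφ hs => ?_
      have e1 := (WeakGrad.wpd hG i).ibp φ hφ hs
      have e2 := (weakPd_lip hL i).ibp φ hφ hs
      have e3 : ∫ x, u x * pd i φ x = ∫ x, w x * pd i φ x :=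
        integral_congr_ae (huw.mono fun x hx => by simp only [hx])
      have e4 : ∀ f : Pt d → ℝ, ∫ x, φ x • f x = ∫ x, f x * φ x := fun f =>
        integral_congr_ae (Eventually.of_forall fun x => by simp [mul_comm])
      rw [e4, e4]
      linarith
    filter_upwards [ae_all_iff.2 hi] with x hx
    ext i
    exact hx i
  refine ⟨w, huw, ⟨⟨K, hL⟩, hw0, fun c R v hvl hv0 S hS hSR hvS => ?_⟩, hH⟩
  obtain ⟨L, hvL⟩ := hvl
  have hvW : WeakGrad v (grad v) := by
    refine ⟨fun R => ⟨?_, memLp_grad hvL 0 R⟩, fun φ hφ hs i => (weakPd_lip hvL i).ibp φ hφ hs⟩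
    haveI : IsFiniteMeasure (volume.restrict (ball (0 : Pt d) R)) :=
      isFiniteMeasure_restrict.2 measure_ball_lt_top.ne
    obtain ⟨B, hB⟩ := (isCompact_closedBall (0 : Pt d) R).exists_bound_of_continuousOn hvL.continuous.continuousOn
    exact MemLp.of_bound hvL.continuous.aestronglyMeasurable B
      ((ae_restrict_iff' measurableSet_ball).2 (Eventually.of_forall fun x hx => hB x (ball_subset_closedBall hx)))
  have := hmin c R v (grad v) hvW (Eventually.of_forall hv0) S hS hSR
    (huw.mono fun x hx hxS => by rw [hvS x hxS, hx])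
  rw [bernoulli_grad] at this
  refine le_trans (le_of_eq ?_) this
  rw [← bernoulli_grad, ← bernoulli_congr hGw]
  refine integral_congr_ae (ae_restrict_of_ae (huw.mono fun x hx => ?_))
  simp [indicator, hx]

/-- First regularity in every dimension. -/
theorem firstReg (d : ℕ) : FirstReg d := by
  rcases Nat.eq_zero_or_pos d with rfl | hd
  · intro u _ hom
    refine ⟨fun _ => 0, (hom 2 two_pos).mono fun x hx => ?_,
      ⟨⟨0, LipschitzWith.const _⟩, fun _ => le_rfl, fun c R v _ _ S _ _ _ => ?_⟩, fun r _ _ => by simp⟩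
    · rw [Subsingleton.elim ((2 : ℝ) • x) x] at hx
      show u x = 0
      linarith
    · have : energy (fun _ : Pt 0 => (0 : ℝ)) c R = 0 := by simp [energy, gradSq]
      rw [this]
      exact integral_nonneg fun x => by
        have := indicator_nonneg (s := {y : Pt 0 | 0 < v y}) (fun _ _ => zero_le_one (α := ℝ)) x
        simpa [gradSq] using this
  haveI : NeZero d := ⟨hd.ne'⟩
  exact firstReg_of_ne d

end Vale.Agent.P098.Reg
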