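import Vale.Agent.P098.Reg.AC.Bump

/-! Radial averages of a function whose Laplacian is nonnegative and small. -/

noncomputable section

namespace Vale.Agent.P098.Reg.AC

open MeasureTheory Set Filter Topology Metric
open scoped ContDiff

variable {d : ℕ}

/-- Pairing of `u` with the Laplacian of a test function. -/
def mu (u φ : EuclideanSpace ℝ (Fin d) → ℝ) : ℝ := ∫ y, u y * lap φ y

/-- The two consequences of minimality that the averages use. -/
structure Tame (u : EuclideanSpace ℝ (Fin d) → ℝ) : Prop where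
  loc : LocallyIntegrable u
  mu_nonneg : ∀ φ, ContDiff ℝ ∞ φ → HasCompactSupport φ → (∀ y, 0 ≤ φ y) → 0 ≤ mu u φ
  mu_le : ∀ φ, ContDiff ℝ ∞ φ → HasCompactSupport φ → (∀ y, 0 ≤ φ y) →
    mu u φ ≤ Real.sqrt (∫ y, ∑ i, pd i φ y ^ 2) *
      Real.sqrt (volume.real ({y | u y = 0} ∩ tsupport φ))

/-- Rescaled potential. -/
def psiR (r : ℝ) (x y : EuclideanSpace ℝ (Fin d)) : ℝ := psi (r⁻¹ • (y - x))

/-- Rescaled kernel. -/
def ker (r : ℝ) (x y : EuclideanSpace ℝ (Fin d)) : ℝ := eta (r⁻¹ • (y - x)) / r ^ d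

/-- Radial average. -/
def avg (u : EuclideanSpace ℝ (Fin d) → ℝ) (x : EuclideanSpace ℝ (Fin d)) (r : ℝ) : ℝ :=
  ∫ y, ker r x y * u y

/-- Slope constant. -/
def slope0 (d : ℕ) : ℝ :=
  Real.sqrt (∫ z : EuclideanSpace ℝ (Fin d), ∑ i, pd i psi z ^ 2) *
    Real.sqrt (volume.real (closedBall (0 : EuclideanSpace ℝ (Fin d)) 1))

theorem slope0_nonneg : 0 ≤ slope0 d := mul_nonneg (Real.sqrt_nonneg _) (Real.sqrt_nonneg _)

theorem hasFDerivAt_rescale (r : ℝ) (x y : EuclideanSpace ℝ (Fin d)) :
    HasFDerivAt (fun w => r⁻¹ • (w - x)) (r⁻¹ • ContinuousLinearMap.id ℝ _) y :=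
  ((hasFDerivAt_id y).sub_const x).const_smul r⁻¹

theorem pd_rescale {f : EuclideanSpace ℝ (Fin d) → ℝ} (hf : Differentiable ℝ f) (r : ℝ)
    (i : Fin d) (x y : EuclideanSpace ℝ (Fin d)) :
    pd i (fun w => f (r⁻¹ • (w - x))) y = r⁻¹ * pd i f (r⁻¹ • (y - x)) := by
  have h := (hf (r⁻¹ • (y - x))).hasFDerivAt.comp y (hasFDerivAt_rescale r x y)
  rw [pd, show (fun w => f (r⁻¹ • (w - x))) = f ∘ (fun w => r⁻¹ • (w - x)) from rfl, h.fderiv]
  simp [pd]

theorem pd_psiR (r : ℝ) (i : Fin d) (x y : EuclideanSpace ℝ (Fin d)) :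
    pd i (psiR r x) y = r⁻¹ * pd i psi (r⁻¹ • (y - x)) :=
  pd_rescale (contDiff_psi.differentiable (by simp)) r i x y

theorem lap_psiR (r : ℝ) (x y : EuclideanSpace ℝ (Fin d)) :
    lap (psiR r x) y = r⁻¹ ^ 2 * lap psi (r⁻¹ • (y - x)) := by
  simp only [lap, Finset.mul_sum]
  refine Finset.sum_congr rfl fun i _ => ?_
  have hs : ContDiff ℝ ∞ (pd i (psi (d := d))) := contDiff_pd contDiff_psi le_rfl
  have hd := hs.differentiable (by simp)
  rw [show pd i (psiR r x) = fun w => r⁻¹ * (fun w => pd i psi (r⁻¹ • (w - x))) w from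
    funext (pd_psiR r i x), pd_const_mul, pd_rescale hd]
  · ring
  · exact (hd _).comp y (hasFDerivAt_rescale r x y).differentiableAt

theorem contDiff_psiR (r : ℝ) (x : EuclideanSpace ℝ (Fin d)) : ContDiff ℝ ∞ (psiR r x) :=
  contDiff_psi.comp ((contDiff_id.sub contDiff_const).const_smul r⁻¹)

theorem norm_rescale {r : ℝ} (hr : 0 < r) (x y : EuclideanSpace ℝ (Fin d)) :
    ‖r⁻¹ • (y - x)‖ = dist y x / r := by
  rw [norm_smul, norm_inv, Real.norm_of_nonneg hr.le, ← dist_eq_norm, inv_mul_eq_div]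

theorem psiR_eq_zero {r : ℝ} (hr : 0 < r) {x y : EuclideanSpace ℝ (Fin d)} (h : r ≤ dist y x) :
    psiR r x y = 0 :=
  psi_of_one_le (by rw [norm_rescale hr]; exact (one_le_div hr).2 h)

theorem tsupport_psiR {r : ℝ} (hr : 0 < r) (x : EuclideanSpace ℝ (Fin d)) :
    tsupport (psiR r x) ⊆ closedBall x r :=
  closure_minimal (fun y hy => by
    rw [mem_closedBall]; by_contra h; exact hy (psiR_eq_zero hr (not_le.1 h).le)) isClosed_closedBall

theorem hasCompactSupport_psiR {r : ℝ} (hr : 0 < r) (x : EuclideanSpace ℝ (Fin d)) :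
    HasCompactSupport (psiR r x) :=
  (isCompact_closedBall x r).of_isClosed_subset (isClosed_tsupport _) (tsupport_psiR hr x)

theorem ker_eq_zero {r : ℝ} (hr : 0 < r) {x y : EuclideanSpace ℝ (Fin d)} (h : r < dist y x) :
    ker r x y = 0 := by
  rw [ker, eta_of_one_lt (by rw [norm_rescale hr]; exact (one_lt_div hr).2 h), zero_div]

theorem eta_bounded : ∃ M, 0 ≤ M ∧ ∀ z : EuclideanSpace ℝ (Fin d), |eta z| ≤ M := by
  obtain ⟨M, hM⟩ := (contDiff_eta (d := d)).continuous.bounded_above_of_compact_support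
    (HasCompactSupport.intro (isCompact_closedBall 0 1) fun z hz =>
      eta_of_one_lt (by simpa [mem_closedBall_zero_iff] using hz))
  exact ⟨max M 0, le_max_right _ _, fun z => (hM z).trans (le_max_left _ _)⟩

/-- `r`-derivative of the kernel. -/
theorem hasDerivAt_ker [NeZero d] {r : ℝ} (hr : r ≠ 0) (x y : EuclideanSpace ℝ (Fin d)) :
    HasDerivAt (fun s => ker s x y) (r / r ^ d * lap (psiR r x) y) r := by
  set z := r⁻¹ • (y - x) with hz
  have h1 : HasDerivAt (fun s : ℝ => s⁻¹ • (y - x)) ((-(r ^ 2)⁻¹) • (y - x)) r :=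
    (hasDerivAt_inv hr).smul_const _
  have h2 := ((contDiff_eta.differentiable (by simp)) z).hasFDerivAt.comp_hasDerivAt r h1
  have h3 := h2.div (hasDerivAt_pow d r) (pow_ne_zero d hr)
  refine h3.congr_deriv ?_
  have he : (-(r ^ 2)⁻¹) • (y - x) = (-r⁻¹) • z := by
    rw [hz, smul_smul]; congr 1; field_simp
  rw [he, map_smul, fderiv_eq_sum_pd, lap_psiR, lap_psi, ← hz, smul_eq_mul, Function.comp_apply]
  obtain ⟨n, rfl⟩ : ∃ n, d = n + 1 := ⟨d - 1, (Nat.sub_add_cancel (NeZero.one_le)).symm⟩
  simp only [Nat.add_sub_cancel, pow_succ]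
  rw [← hz]
  field_simp
  ring

theorem integrable_ker_mul {u : EuclideanSpace ℝ (Fin d) → ℝ} (hu : LocallyIntegrable u)
    {r : ℝ} (hr : 0 < r) (x : EuclideanSpace ℝ (Fin d)) : Integrable fun y => ker r x y * u y := by
  have := hu.integrable_smul_left_of_hasCompactSupport (g := ker r x)
    ((contDiff_eta.continuous.comp ((continuous_id.sub continuous_const).const_smul r⁻¹)).div_const _)
    (HasCompactSupport.intro (isCompact_closedBall x r) fun y hy =>
      ker_eq_zero hr (by simpa [mem_closedBall] using hy))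
  simpa using this

theorem hasDerivAt_avg [NeZero d] {u : EuclideanSpace ℝ (Fin d) → ℝ} (hu : LocallyIntegrable u)
    (x : EuclideanSpace ℝ (Fin d)) {r : ℝ} (hr : 0 < r) :
    HasDerivAt (avg u x) (r / r ^ d * mu u (psiR r x)) r := by
  have hs : ball r (r / 2) ⊆ Icc (r / 2) (2 * r) := fun s hs => by
    rw [mem_ball, Real.dist_eq, abs_lt] at hs; constructor <;> linarith
  have hc : ContinuousOn (fun p : ℝ × EuclideanSpace ℝ (Fin d) => p.1 / p.1 ^ d * lap (psiR p.1 x) p.2)
      (Icc (r / 2) (2 * r) ×ˢ univ) := by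
    have h0 : ∀ p ∈ Icc (r / 2) (2 * r) ×ˢ (univ : Set (EuclideanSpace ℝ (Fin d))), p.1 ≠ 0 :=
      fun p hp => by have := hp.1.1; intro h; linarith
    simp only [lap_psiR]
    refine (continuousOn_fst.div (continuousOn_fst.pow d) fun p hp => pow_ne_zero d (h0 p hp)).mul
      (((continuousOn_fst.inv₀ h0).pow 2).mul ?_)
    have hl : Continuous (lap (psi (d := d))) := continuous_finsetSum _ fun i _ =>
      (contDiff_pd (contDiff_pd (n := ∞) (m := ∞) contDiff_psi le_rfl) (m := ∞) le_rfl).continuous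
    exact hl.comp_continuousOn ((continuousOn_fst.inv₀ h0).smul (continuousOn_snd.sub continuousOn_const))
  obtain ⟨M, hM⟩ := (isCompact_Icc.prod (isCompact_closedBall x (2 * r))).exists_bound_of_continuousOn
    (hc.mono fun p hp => ⟨hp.1, mem_univ _⟩)
  have key := (hasDerivAt_integral_of_dominated_loc_of_deriv_le (μ := volume) (x₀ := r)
    (F := fun s y => ker s x y * u y) (F' := fun s y => s / s ^ d * lap (psiR s x) y * u y)
    (bound := (closedBall x (2 * r)).indicator fun y => |M| * |u y|) (ball_mem_nhds r (half_pos hr))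
    ?_ (integrable_ker_mul hu hr x) ?_ ?_ ?_ ?_).2
  · refine key.congr_deriv ?_
    rw [mu, ← integral_const_mul]
    exact integral_congr_ae (Eventually.of_forall fun y => by ring)
  · refine eventually_of_mem (Ioi_mem_nhds hr) fun s hs => ?_
    exact (integrable_ker_mul hu hs x).aestronglyMeasurable
  · refine AEStronglyMeasurable.mul ?_ hu.aestronglyMeasurable
    exact (continuous_const.mul (continuous_finsetSum _ fun i _ => (contDiff_pd (contDiff_pd (n := ∞)
      (m := ∞) (contDiff_psiR r x) le_rfl) (m := ∞) le_rfl).continuous)).aestronglyMeasurable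
  · refine Eventually.of_forall fun y s hsb => ?_
    have hs' := hs hsb
    by_cases hy : y ∈ closedBall x (2 * r)
    · rw [indicator_of_mem hy, norm_mul, Real.norm_eq_abs (u y)]
      exact mul_le_mul_of_nonneg_right ((hM (s, y) ⟨hs', hy⟩).trans (le_abs_self M)) (abs_nonneg _)
    · rw [indicator_of_notMem hy]
      have hs0 : 0 < s := by linarith [hs'.1]
      have hl : lap (psiR s x) y = 0 := by
        have hev : psiR s x =ᶠ[𝓝 y] fun _ => (0 : ℝ) := by
          refine eventually_of_mem ((isClosed_closedBall (x := x) (ε := s)).isOpen_compl.mem_nhds ?_)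
            fun w hw => psiR_eq_zero hs0 ?_
          · simp only [mem_compl_iff, mem_closedBall, not_le] at hy ⊢; linarith [hs'.2]
          · simp only [mem_compl_iff, mem_closedBall, not_le] at hw; linarith
        refine Finset.sum_eq_zero fun i _ => ?_
        have : pd i (psiR s x) =ᶠ[𝓝 y] fun _ => (0 : ℝ) :=
          hev.eventuallyEq_nhds.mono fun w hw => (pd_congr hw).trans (pd_const 0)
        exact (pd_congr this).trans (pd_const 0)
      simp [hl]
  · exact ((integrable_indicator_iff measurableSet_closedBall).2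
      ((hu.integrableOn_isCompact (isCompact_closedBall x (2 * r))).norm.const_mul |M|))
  · refine Eventually.of_forall fun y s hs' => ?_
    exact (hasDerivAt_ker (by have := (hs hs').1; intro h; linarith) x y).mul_const (u y)

theorem integral_gradSq_psiR {r : ℝ} (hr : 0 < r) (x : EuclideanSpace ℝ (Fin d)) :
    ∫ y, ∑ i, pd i (psiR r x) y ^ 2 =
      r⁻¹ ^ 2 * r ^ d * ∫ z : EuclideanSpace ℝ (Fin d), ∑ i, pd i psi z ^ 2 := by
  simp only [pd_psiR, mul_pow, ← Finset.mul_sum, integral_const_mul]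
  rw [integral_sub_right_eq_self (fun y => ∑ i, pd i psi (r⁻¹ • y) ^ 2) x,
    Measure.integral_comp_inv_smul volume (fun z => ∑ i, pd i psi z ^ 2) r, finrank_euclideanSpace_fin,
    abs_of_pos (pow_pos hr d), smul_eq_mul]
  ring

theorem volReal_closedBall {r : ℝ} (hr : 0 ≤ r) (x : EuclideanSpace ℝ (Fin d)) :
    volume.real (closedBall x r) = r ^ d * volume.real (closedBall (0 : EuclideanSpace ℝ (Fin d)) 1) := by
  rw [Measure.real, Measure.real, Measure.addHaar_closedBall' volume x hr, finrank_euclideanSpace_fin,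
    ENNReal.toReal_mul, ENNReal.toReal_ofReal (pow_nonneg hr d)]

variable {u : EuclideanSpace ℝ (Fin d) → ℝ}

theorem Tame.deriv_avg_le [NeZero d] (T : Tame u) (x : EuclideanSpace ℝ (Fin d)) {r θ : ℝ} (hr : 0 < r)
    (hθ : volume.real ({y | u y = 0} ∩ closedBall x r) ≤ θ * volume.real (closedBall x r)) :
    r / r ^ d * mu u (psiR r x) ≤ slope0 d * Real.sqrt θ := by
  have h := T.mu_le _ (contDiff_psiR r x) (hasCompactSupport_psiR hr x) (fun y => psi_nonneg _)
  have hv : volume.real ({y | u y = 0} ∩ tsupport (psiR r x)) ≤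
      r ^ d * volume.real (closedBall (0 : EuclideanSpace ℝ (Fin d)) 1) * θ :=
    ((measureReal_mono (inter_subset_inter_right _ (tsupport_psiR hr x))
      ((measure_mono inter_subset_right).trans_lt measure_closedBall_lt_top).ne).trans hθ).trans_eq
      (by rw [volReal_closedBall hr.le]; ring)
  refine (mul_le_mul_of_nonneg_left (h.trans (mul_le_mul_of_nonneg_left (Real.sqrt_le_sqrt hv)
    (Real.sqrt_nonneg _))) (by positivity)).trans_eq ?_
  rw [integral_gradSq_psiR hr x, slope0, Real.sqrt_mul (by positivity), Real.sqrt_mul (by positivity),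
    Real.sqrt_mul (mul_nonneg (pow_nonneg hr.le d) measureReal_nonneg), Real.sqrt_mul (pow_nonneg hr.le d),
    Real.sqrt_sq (by positivity)]
  have hs := Real.mul_self_sqrt (pow_nonneg hr.le d)
  field_simp
  linear_combination (Real.sqrt θ * Real.sqrt (∫ z : EuclideanSpace ℝ (Fin d), ∑ i, pd i psi z ^ 2) *
    Real.sqrt (volume.real (closedBall (0 : EuclideanSpace ℝ (Fin d)) 1))) * hs

theorem Tame.deriv_avg_nonneg [NeZero d] (T : Tame u) (x : EuclideanSpace ℝ (Fin d)) {r : ℝ}
    (hr : 0 < r) : 0 ≤ r / r ^ d * mu u (psiR r x) :=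
  mul_nonneg (by positivity) (T.mu_nonneg _ (contDiff_psiR r x) (hasCompactSupport_psiR hr x)
    (fun y => psi_nonneg _))

theorem Tame.avg_mono [NeZero d] (T : Tame u) (x : EuclideanSpace ℝ (Fin d)) :
    MonotoneOn (avg u x) (Ioi 0) :=
  monotoneOn_of_deriv_nonneg (convex_Ioi 0)
    (fun r hr => (hasDerivAt_avg T.loc x hr).continuousAt.continuousWithinAt)
    (fun r hr => (hasDerivAt_avg T.loc x (interior_subset hr)).differentiableAt.differentiableWithinAt)
    fun r hr => by
      rw [(hasDerivAt_avg T.loc x (interior_subset hr)).deriv]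
      exact T.deriv_avg_nonneg x (interior_subset hr)

/-- The basic two-sided estimate. -/
theorem Tame.avg_sub_le [NeZero d] (T : Tame u) (x : EuclideanSpace ℝ (Fin d)) {a b θ : ℝ} (ha : 0 < a)
    (hab : a ≤ b)
    (hθ : ∀ r ∈ Icc a b, volume.real ({y | u y = 0} ∩ closedBall x r) ≤ θ * volume.real (closedBall x r)) :
    avg u x b - avg u x a ≤ slope0 d * Real.sqrt θ * (b - a) := by
  have hd : ∀ r ∈ Icc a b, HasDerivAt (avg u x) (r / r ^ d * mu u (psiR r x)) r := fun r hr =>
    hasDerivAt_avg T.loc x (ha.trans_le hr.1)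
  exact (convex_Icc a b).image_sub_le_mul_sub_of_deriv_le
    (fun r hr => (hd r hr).continuousAt.continuousWithinAt)
    (fun r hr => (hd r (interior_subset hr)).differentiableAt.differentiableWithinAt)
    (fun r hr => by
      rw [(hd r (interior_subset hr)).deriv]
      exact T.deriv_avg_le x (ha.trans_le (interior_subset hr).1) (hθ r (interior_subset hr)))
    a (left_mem_Icc.2 hab) b (right_mem_Icc.2 hab) hab

theorem Tame.avg_sub_le_one [NeZero d] (T : Tame u) (x : EuclideanSpace ℝ (Fin d)) {a b : ℝ} (ha : 0 < a)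
    (hab : a ≤ b) : avg u x b - avg u x a ≤ slope0 d * (b - a) := by
  have := T.avg_sub_le x (θ := 1) ha hab fun r _ => by
    rw [one_mul]; exact measureReal_mono inter_subset_right measure_closedBall_lt_top.ne
  simpa using this

theorem continuous_avg (hu : LocallyIntegrable u) {r : ℝ} (hr : 0 < r) : Continuous fun x => avg u x r := by
  obtain ⟨M, hM0, hM⟩ := eta_bounded (d := d)
  refine continuous_iff_continuousAt.2 fun x0 => ?_
  refine continuousAt_of_dominated (bound := (closedBall x0 (r + 1)).indicator fun y => M / r ^ d * |u y|)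
    (Eventually.of_forall fun x => (integrable_ker_mul hu hr x).aestronglyMeasurable) ?_ ?_ ?_
  · refine eventually_of_mem (ball_mem_nhds x0 one_pos) fun x hx => Eventually.of_forall fun y => ?_
    by_cases hy : y ∈ closedBall x0 (r + 1)
    · rw [indicator_of_mem hy, norm_mul, Real.norm_eq_abs (u y), ker, norm_div, norm_pow,
        Real.norm_of_nonneg hr.le]
      gcongr
      exact hM _
    · rw [indicator_of_notMem hy, ker_eq_zero hr]
      · simp
      · simp only [mem_closedBall, not_le] at hy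
        rw [mem_ball] at hx
        linarith [dist_triangle y x x0]
  · exact (integrable_indicator_iff measurableSet_closedBall).2
      ((hu.integrableOn_isCompact (isCompact_closedBall x0 (r + 1))).norm.const_mul _)
  · refine Eventually.of_forall fun y => ContinuousAt.mul ?_ continuousAt_const
    exact ((contDiff_eta.continuous.comp ((continuous_const.sub continuous_id).const_smul r⁻¹)).div_const _).continuousAt

end Vale.Agent.P098.Reg.AC
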