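import Vale.Agent.P098.Calc

/-! A radial bump written as a Laplacian: the kernel behind the Alt-Caffarelli estimates. -/

noncomputable section

namespace Vale.Agent.P098.Reg.AC

open MeasureTheory Set Filter Topology Metric
open scoped ContDiff RealInnerProductSpace

variable {d : ℕ}

/-- Laplacian through coordinate derivatives. -/
def lap (f : EuclideanSpace ℝ (Fin d) → ℝ) (x : EuclideanSpace ℝ (Fin d)) : ℝ :=
  ∑ i, pd i (pd i f) x

/-- Profile: positive before one and zero from one on. -/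
def prof (t : ℝ) : ℝ := expNegInvGlue (1 - t)

/-- Twice its negative derivative. -/
def dens (t : ℝ) : ℝ := -2 * deriv prof t

theorem contDiff_prof : ContDiff ℝ ∞ prof :=
  (expNegInvGlue.contDiff (n := ⊤)).comp (contDiff_const.sub contDiff_id)

theorem contDiff_dens : ContDiff ℝ ∞ dens :=
  contDiff_const.mul (contDiff_prof.deriv' (n := ∞))

theorem prof_nonneg (t : ℝ) : 0 ≤ prof t := expNegInvGlue.nonneg _

theorem prof_of_one_le {t : ℝ} (h : 1 ≤ t) : prof t = 0 :=
  expNegInvGlue.zero_of_nonpos (by linarith)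

theorem dens_nonneg (t : ℝ) : 0 ≤ dens t := by
  have : Antitone prof := fun a b h => expNegInvGlue.monotone (by linarith)
  have := this.deriv_nonpos (x := t)
  simp only [dens]; linarith

theorem dens_of_one_lt {t : ℝ} (h : 1 < t) : dens t = 0 := by
  have : prof =ᶠ[𝓝 t] fun _ => (0 : ℝ) :=
    eventually_of_mem (Ioi_mem_nhds h) fun s hs => prof_of_one_le (le_of_lt hs)
  simp [dens, this.deriv_eq]

theorem dens_pos {t : ℝ} (h : t < 1) : 0 < dens t := by
  have he : prof =ᶠ[𝓝 t] fun s => Real.exp (-(1 - s)⁻¹) :=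
    eventually_of_mem (Iio_mem_nhds h) fun s hs => by
      have : (0 : ℝ) < 1 - s := by have := mem_Iio.1 hs; linarith
      simp [prof, expNegInvGlue, not_le.2 this]
  have hd : HasDerivAt (fun s : ℝ => Real.exp (-(1 - s)⁻¹))
      (Real.exp (-(1 - t)⁻¹) * -(1 / (1 - t) ^ 2)) t := by
    have := ((((hasDerivAt_id t).const_sub (1 : ℝ)).inv (by simp; linarith)).neg).exp
    simpa using this
  rw [dens, he.deriv_eq, hd.deriv]
  have : 0 < Real.exp (-(1 - t)⁻¹) * (1 / (1 - t) ^ 2) :=
    mul_pos (Real.exp_pos _) (div_pos one_pos (pow_pos (by linarith) 2))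
  nlinarith

theorem exists_dens_pos : ∃ t ∈ Ioo (0 : ℝ) 1, 0 < dens t :=
  ⟨1 / 2, by norm_num, dens_pos (by norm_num)⟩

/-- Unnormalised radial kernel. -/
def eta0 (z : EuclideanSpace ℝ (Fin d)) : ℝ := dens (‖z‖ ^ 2)

theorem contDiff_eta0 : ContDiff ℝ ∞ (eta0 (d := d)) := contDiff_dens.comp (contDiff_norm_sq ℝ)

theorem eta0_of_one_lt {z : EuclideanSpace ℝ (Fin d)} (h : 1 < ‖z‖) : eta0 z = 0 :=
  dens_of_one_lt (by nlinarith)

theorem eta0_support : Function.support (eta0 (d := d)) ⊆ closedBall 0 1 := fun z hz => by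
  rw [mem_closedBall_zero_iff]
  by_contra h
  exact hz (eta0_of_one_lt (not_le.1 h))

theorem hasCompactSupport_eta0 : HasCompactSupport (eta0 (d := d)) :=
  HasCompactSupport.intro (isCompact_closedBall 0 1) fun z hz => by
    by_contra h
    exact hz (eta0_support h)

/-- Normalising constant. -/
def mass (d : ℕ) : ℝ := ∫ z : EuclideanSpace ℝ (Fin d), eta0 z

theorem mass_pos [NeZero d] : 0 < mass d := by
  obtain ⟨t, ht, hp⟩ := exists_dens_pos
  have hi : Integrable (eta0 (d := d)) :=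
    contDiff_eta0.continuous.integrable_of_hasCompactSupport hasCompactSupport_eta0
  refine (integral_pos_iff_support_of_nonneg (fun z => dens_nonneg _) hi).2 ?_
  refine IsOpen.measure_pos _ (contDiff_eta0.continuous.isOpen_support)
    ⟨Real.sqrt t • EuclideanSpace.single 0 (1 : ℝ), ?_⟩
  have hn : ‖Real.sqrt t • EuclideanSpace.single (0 : Fin d) (1 : ℝ)‖ ^ 2 = t := by
    simp [norm_smul, Real.sq_sqrt ht.1.le]
  simp [eta0, hn, hp.ne']

/-- The kernel. -/
def eta (z : EuclideanSpace ℝ (Fin d)) : ℝ := eta0 z / mass d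

/-- Its potential. -/
def psi (z : EuclideanSpace ℝ (Fin d)) : ℝ := prof (‖z‖ ^ 2) / mass d

theorem contDiff_eta : ContDiff ℝ ∞ (eta (d := d)) := contDiff_eta0.div_const _

theorem contDiff_psi : ContDiff ℝ ∞ (psi (d := d)) :=
  (contDiff_prof.comp (contDiff_norm_sq ℝ)).div_const _

theorem eta_of_one_lt {z : EuclideanSpace ℝ (Fin d)} (h : 1 < ‖z‖) : eta z = 0 := by
  simp [eta, eta0_of_one_lt h]

theorem psi_of_one_le {z : EuclideanSpace ℝ (Fin d)} (h : 1 ≤ ‖z‖) : psi z = 0 := by
  simp [psi, prof_of_one_le (one_le_pow₀ h)]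

theorem eta_nonneg [NeZero d] (z : EuclideanSpace ℝ (Fin d)) : 0 ≤ eta z :=
  div_nonneg (dens_nonneg _) mass_pos.le

theorem psi_nonneg [NeZero d] (z : EuclideanSpace ℝ (Fin d)) : 0 ≤ psi z :=
  div_nonneg (prof_nonneg _) mass_pos.le

theorem integral_eta [NeZero d] : ∫ z : EuclideanSpace ℝ (Fin d), eta z = 1 := by
  simp only [eta, integral_div]
  exact div_self mass_pos.ne'

theorem pd_psi (i : Fin d) (z : EuclideanSpace ℝ (Fin d)) : pd i psi z = -(eta z * z i) := by
  have h := ((contDiff_prof.differentiable (by simp) (‖z‖ ^ 2)).hasDerivAt.comp_hasFDerivAt z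
    (hasStrictFDerivAt_norm_sq z).hasFDerivAt).mul_const (mass d)⁻¹
  have he : psi (d := d) = fun y => (prof ∘ fun y => ‖y‖ ^ 2) y * (mass d)⁻¹ := by
    funext y; simp [psi, div_eq_mul_inv]
  rw [pd, he, h.fderiv]
  simp [eta, eta0, dens, EuclideanSpace.inner_single_right]
  ring

theorem lap_psi (z : EuclideanSpace ℝ (Fin d)) :
    lap psi z = -((d : ℝ) * eta z + ∑ i, z i * pd i eta z) := by
  have hd : ∀ y : EuclideanSpace ℝ (Fin d), DifferentiableAt ℝ (eta (d := d)) y :=
    contDiff_eta.differentiable (by simp)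
  have hi : ∀ i : Fin d, DifferentiableAt ℝ (fun y : EuclideanSpace ℝ (Fin d) => y i) z := fun i =>
    (EuclideanSpace.proj (𝕜 := ℝ) i).differentiableAt
  calc lap psi z = ∑ i, -(eta z + z i * pd i eta z) := by
        refine Finset.sum_congr rfl fun i _ => ?_
        rw [show pd i (psi (d := d)) = fun y => -(eta y * y i) from funext (pd_psi i), pd_neg,
          pd_mul (hd z) (hi i), pd_apply]
        simp; ring
    _ = _ := by simp [Finset.sum_add_distrib]

theorem eta_lower [NeZero d] : ∃ c > 0, ∀ z : EuclideanSpace ℝ (Fin d), ‖z‖ ≤ 1 / 2 → c ≤ eta z := by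
  obtain ⟨t, ht, hmin⟩ := (isCompact_Icc (a := (0 : ℝ)) (b := 1 / 4)).exists_isMinOn
    (nonempty_Icc.2 (by norm_num)) contDiff_dens.continuous.continuousOn
  refine ⟨dens t / mass d, div_pos (dens_pos (by linarith [ht.2])) mass_pos, fun z hz => ?_⟩
  refine div_le_div_of_nonneg_right (hmin ⟨sq_nonneg _, ?_⟩) mass_pos.le
  nlinarith [norm_nonneg z]

theorem eta_neg (z : EuclideanSpace ℝ (Fin d)) : eta (-z) = eta z := by
  simp [eta, eta0]

end Vale.Agent.P098.Reg.AC
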