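import Vale.Agent.P098.Reg.AC.Smooth

/-! The chain rule for weak partial derivatives, by mollification in `L¹`. -/

noncomputable section

namespace Vale.Agent.P098.Reg.AC

open MeasureTheory Set Filter Topology Metric
open scoped ContDiff Convolution

variable {d : ℕ}

/-- `g` is a weak `i`-th partial derivative of `u`. -/
structure WeakPd (i : Fin d) (u g : EuclideanSpace ℝ (Fin d) → ℝ) : Prop where
  loc : LocallyIntegrable u
  locg : LocallyIntegrable g
  ibp : ∀ φ, ContDiff ℝ ∞ φ → HasCompactSupport φ → ∫ x, u x * pd i φ x = -∫ x, g x * φ x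

/-- The mollifying bumps. -/
def bump (d : ℕ) (n : ℕ) : ContDiffBump (0 : EuclideanSpace ℝ (Fin d)) where
  rIn := 1 / (2 * ((n : ℝ) + 1))
  rOut := 1 / ((n : ℝ) + 1)
  rIn_pos := by positivity
  rIn_lt_rOut := by
    apply div_lt_div_of_pos_left one_pos (by positivity)
    have : (0 : ℝ) < (n : ℝ) + 1 := by positivity
    linarith

/-- Mollification. -/
def moll (n : ℕ) (f : EuclideanSpace ℝ (Fin d) → ℝ) : EuclideanSpace ℝ (Fin d) → ℝ :=
  (bump d n).normed volume ⋆[ContinuousLinearMap.lsmul ℝ ℝ, volume] f

theorem ae_tendsto_moll {f : EuclideanSpace ℝ (Fin d) → ℝ} (hf : LocallyIntegrable f) :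
    ∀ᵐ x, Tendsto (fun n => moll n f x) atTop (𝓝 (f x)) := by
  refine ContDiffBump.ae_convolution_tendsto_right_of_locallyIntegrable (K := 2) ?_ ?_ hf
  · exact tendsto_one_div_add_atTop_nhds_zero_nat
  · refine Eventually.of_forall fun n => le_of_eq ?_
    show (1 : ℝ) / ((n : ℝ) + 1) = 2 * (1 / (2 * ((n : ℝ) + 1)))
    field_simp

theorem contDiff_moll {f : EuclideanSpace ℝ (Fin d) → ℝ} (hf : LocallyIntegrable f) (n : ℕ) :
    ContDiff ℝ ∞ (moll n f) :=
  (bump d n).hasCompactSupport_normed.contDiff_convolution_left _ (bump d n).contDiff_normed hf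

theorem integrable_moll {f : EuclideanSpace ℝ (Fin d) → ℝ} (hf : Integrable f) (n : ℕ) :
    Integrable (moll n f) :=
  (bump d n).integrable_normed.integrable_convolution _ hf

theorem integral_moll {f : EuclideanSpace ℝ (Fin d) → ℝ} (hf : Integrable f) (n : ℕ) :
    ∫ x, moll n f x = ∫ x, f x := by
  rw [moll, integral_convolution _ (bump d n).integrable_normed hf, ContDiffBump.integral_normed]
  simp

theorem abs_moll_le (f : EuclideanSpace ℝ (Fin d) → ℝ) (n : ℕ) (x : EuclideanSpace ℝ (Fin d)) :
    |moll n f x| ≤ moll n (fun y => |f y|) x := by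
  simp only [moll, convolution_def, ContinuousLinearMap.lsmul_apply, smul_eq_mul]
  refine abs_integral_le_integral_abs.trans_eq (integral_congr_ae (Eventually.of_forall fun t => ?_))
  show |(bump d n).normed volume t * f (x - t)| = _
  rw [abs_mul, abs_of_nonneg ((bump d n).nonneg_normed t)]

/-- A variant of Scheffé's lemma: domination by a sequence converging in mean. -/
theorem tendsto_integral_abs_sub {f : EuclideanSpace ℝ (Fin d) → ℝ}
    {F H : ℕ → EuclideanSpace ℝ (Fin d) → ℝ} (hf : Integrable f) (hF : ∀ n, Integrable (F n))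
    (hH : ∀ n, Integrable (H n)) (hle : ∀ n x, |F n x| ≤ H n x)
    (hFt : ∀ᵐ x, Tendsto (fun n => F n x) atTop (𝓝 (f x)))
    (hHt : ∀ᵐ x, Tendsto (fun n => H n x) atTop (𝓝 |f x|))
    (hint : ∀ n, ∫ x, H n x = ∫ x, |f x|) :
    Tendsto (fun n => ∫ x, |F n x - f x|) atTop (𝓝 0) := by
  have hH0 : ∀ n x, 0 ≤ H n x := fun n x => (abs_nonneg _).trans (hle n x)
  have h1 : Tendsto (fun n => ∫ x, min |F n x - f x| (2 * |f x|)) atTop (𝓝 (∫ _x : EuclideanSpace ℝ (Fin d), (0 : ℝ))) := by
    refine tendsto_integral_of_dominated_convergence (fun x => 2 * |f x|)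
      (fun n => (((hF n).sub hf).abs.inf (hf.abs.const_mul 2)).aestronglyMeasurable) (hf.abs.const_mul 2) ?_ ?_
    · refine fun n => Eventually.of_forall fun x => ?_
      rw [Real.norm_of_nonneg (le_min (abs_nonneg _) (by positivity))]
      exact min_le_right _ _
    · filter_upwards [hFt] with x hx
      refine squeeze_zero (fun n => le_min (abs_nonneg _) (by positivity)) (fun n => min_le_left _ _) ?_
      simpa using (hx.sub_const (f x)).abs
  have h2 : Tendsto (fun n => ∫ x, max (|f x| - H n x) 0) atTop (𝓝 (∫ _x : EuclideanSpace ℝ (Fin d), (0 : ℝ))) := by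
    refine tendsto_integral_of_dominated_convergence (fun x => |f x|)
      (fun n => ((hf.abs.sub (hH n)).pos_part).aestronglyMeasurable) hf.abs ?_ ?_
    · refine fun n => Eventually.of_forall fun x => ?_
      rw [Real.norm_of_nonneg (le_max_right _ _)]
      exact max_le (by linarith [hH0 n x]) (abs_nonneg _)
    · filter_upwards [hHt] with x hx
      simpa using ((tendsto_const_nhds (x := |f x|)).sub hx).max (tendsto_const_nhds (x := (0 : ℝ)))
  rw [integral_zero] at h1 h2
  refine squeeze_zero (fun n => integral_nonneg fun x => abs_nonneg _) (fun n => ?_)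
    (by simpa using h1.add h2)
  have hi1 := ((hF n).sub hf).abs.inf (hf.abs.const_mul 2)
  have hi2 := (hf.abs.sub (hH n)).pos_part
  have key : ∀ x, |F n x - f x| ≤ (min |F n x - f x| (2 * |f x|) + max (|f x| - H n x) 0) + (H n x - |f x|) := by
    intro x
    have := abs_sub (F n x) (f x)
    have := hle n x
    rcases min_choice |F n x - f x| (2 * |f x|) with h | h <;> rw [h] <;>
      linarith [le_max_left (|f x| - H n x) 0, le_max_right (|f x| - H n x) 0]
  calc ∫ x, |F n x - f x| ≤ ∫ x, ((min |F n x - f x| (2 * |f x|) + max (|f x| - H n x) 0) + (H n x - |f x|)) :=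
        integral_mono ((hF n).sub hf).abs ((hi1.add hi2).add ((hH n).sub hf.abs)) key
    _ = _ := by
        rw [integral_add, integral_add, integral_sub (hH n) hf.abs, hint n]
        · ring
        · exact hi1
        · exact hi2
        · exact hi1.add hi2
        · exact (hH n).sub hf.abs

theorem tendsto_moll_L1 {f : EuclideanSpace ℝ (Fin d) → ℝ} (hf : Integrable f) :
    Tendsto (fun n => ∫ x, |moll n f x - f x|) atTop (𝓝 0) :=
  tendsto_integral_abs_sub hf (integrable_moll hf) (integrable_moll hf.abs) (abs_moll_le f)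
    (ae_tendsto_moll hf.locallyIntegrable) (ae_tendsto_moll hf.abs.locallyIntegrable) (integral_moll hf.abs)

theorem pd_moll {i : Fin d} {u g : EuclideanSpace ℝ (Fin d) → ℝ} (h : WeakPd i u g) (n : ℕ)
    (x : EuclideanSpace ℝ (Fin d)) : pd i (moll n u) x = moll n g x := by
  set ρ := (bump d n).normed (volume : Measure (EuclideanSpace ℝ (Fin d))) with hρ
  have hρd : ContDiff ℝ ∞ ρ := (bump d n).contDiff_normed
  have hρs : HasCompactSupport ρ := (bump d n).hasCompactSupport_normed
  have hd := hρs.hasFDerivAt_convolution_left (L := ContinuousLinearMap.lsmul ℝ ℝ) (μ := volume)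
    (hρd.of_le (by simp)) h.loc x
  set φ := fun w => ρ (x - w) with hφ
  have hφd : ContDiff ℝ ∞ φ := hρd.comp (contDiff_const.sub contDiff_id)
  have hφs : HasCompactSupport φ := hρs.comp_homeomorph (Homeomorph.subLeft x)
  have hpd : ∀ w, pd i φ w = -pd i ρ (x - w) := fun w => by
    have h1 : HasFDerivAt (fun w => x - w) (-ContinuousLinearMap.id ℝ (EuclideanSpace ℝ (Fin d))) w :=
      (hasFDerivAt_id w).const_sub x
    have h2 := ((hρd.differentiable (by simp)) (x - w)).hasFDerivAt.comp w h1
    rw [pd, show φ = ρ ∘ (fun w => x - w) from rfl, h2.fderiv]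
    simp [pd]
  have key := h.ibp φ hφd hφs
  simp only [hpd, mul_neg, integral_neg, neg_inj] at key
  rw [show moll n u = ρ ⋆[ContinuousLinearMap.lsmul ℝ ℝ, volume] u from rfl, pd, hd.fderiv]
  have hci : ConvolutionExistsAt (fderiv ℝ ρ) u x ((ContinuousLinearMap.lsmul ℝ ℝ : ℝ →L[ℝ] ℝ →L[ℝ] ℝ).precompL _) volume :=
    (hρs.fderiv ℝ).convolutionExists_left _ (hρd.continuous_fderiv (by simp)) h.loc x
  rw [convolution_def, ContinuousLinearMap.integral_apply hci]
  calc ∫ t, ((ContinuousLinearMap.lsmul ℝ ℝ).precompL _ (fderiv ℝ ρ t) (u (x - t))) (EuclideanSpace.single i 1)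
      = ∫ t, u (x - t) * pd i ρ t := integral_congr_ae (Eventually.of_forall fun t => by simp [pd, mul_comm])
    _ = ∫ w, u w * pd i ρ (x - w) := by
        rw [← integral_sub_left_eq_self (fun w => u w * pd i ρ (x - w)) volume x]
        simp
    _ = ∫ w, g w * φ w := key
    _ = moll n g x := by
        rw [moll, convolution_eq_swap]
        exact integral_congr_ae (Eventually.of_forall fun w => by simp [hφ, hρ, mul_comm])

/-- Chain rule in integrated form. -/
theorem WeakPd.chain {i : Fin d} {u g : EuclideanSpace ℝ (Fin d) → ℝ} (h : WeakPd i u g) {P : ℝ → ℝ}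
    (hP : ContDiff ℝ 1 P) {K : ℝ} (hK : ∀ t, |deriv P t| ≤ K) {φ : EuclideanSpace ℝ (Fin d) → ℝ}
    (hφ : ContDiff ℝ ∞ φ) (hφs : HasCompactSupport φ) :
    ∫ x, P (u x) * pd i φ x = -∫ x, deriv P (u x) * g x * φ x := by
  obtain ⟨R, hR⟩ := (IsCompact.isBounded hφs).subset_closedBall 0
  set B := closedBall (0 : EuclideanSpace ℝ (Fin d)) (R + 1)
  have hBm : MeasurableSet B := measurableSet_closedBall
  have hu1 : Integrable (B.indicator u) :=
    (h.loc.integrableOn_isCompact (isCompact_closedBall _ _)).integrable_indicator hBm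
  have hg1 : Integrable (B.indicator g) :=
    (h.locg.integrableOn_isCompact (isCompact_closedBall _ _)).integrable_indicator hBm
  have hloc : ∀ (f : EuclideanSpace ℝ (Fin d) → ℝ) n x, x ∈ tsupport φ → moll n f x = moll n (B.indicator f) x := by
    intro f n x hx
    simp only [moll, convolution_def, ContinuousLinearMap.lsmul_apply, smul_eq_mul]
    refine integral_congr_ae (Eventually.of_forall fun t => ?_)
    by_cases ht : (bump d n).normed volume t = 0
    · simp [ht]
    have hts : t ∈ Function.support ((bump d n).normed volume) := ht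
    rw [ContDiffBump.support_normed_eq, mem_ball_zero_iff] at hts
    have hn : (bump d n).rOut ≤ 1 := div_le_one_of_le₀ (by simp) (by positivity)
    have hxR : ‖x‖ ≤ R := by simpa using hR hx
    have : x - t ∈ B := by
      simp only [B, mem_closedBall_zero_iff]
      linarith [norm_sub_le x t]
    simp [indicator_of_mem this]
  have hK0 : 0 ≤ K := (abs_nonneg _).trans (hK 0)
  have hlip : ∀ a b, |P a - P b| ≤ K * |a - b| := fun a b => by
    have := Convex.norm_image_sub_le_of_norm_deriv_le (s := univ) (f := P)
      (fun t _ => hP.differentiable (by simp) t) (C := K) (fun t _ => hK t) convex_univ (mem_univ b) (mem_univ a)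
    simpa using this
  obtain ⟨M, hM⟩ := (contDiff_pd hφ (m := 0) (by simp) : ContDiff ℝ 0 (pd i φ)).continuous.bounded_above_of_compact_support
    (hasCompactSupport_pd hφs)
  obtain ⟨N, hN⟩ := hφ.continuous.bounded_above_of_compact_support hφs
  have hcd : Continuous (deriv P) := hP.continuous_deriv le_rfl
  have hpdc : Continuous (pd i φ) := (contDiff_pd hφ (m := 0) (by simp)).continuous
  -- the classical identity for the mollified functions
  have hn : ∀ n, ∫ x, P (moll n u x) * pd i φ x = -∫ x, deriv P (moll n u x) * moll n g x * φ x := by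
    intro n
    have hm : ContDiff ℝ 1 (moll n u) := (contDiff_moll h.loc n).of_le (by simp)
    refine (integral_mul_pd (hP.comp hm) (hφ.of_le (by simp)) hφs i).trans ?_
    congr 1
    refine integral_congr_ae (Eventually.of_forall fun x => ?_)
    show pd i (P ∘ moll n u) x * φ x = _
    rw [show P ∘ moll n u = fun y => P (moll n u y) from rfl,
      pd_comp (hP.differentiable (by simp) _) (hm.differentiable (by simp) _), pd_moll h]
  have hIl : ∀ (v : EuclideanSpace ℝ (Fin d) → ℝ), LocallyIntegrable v volume →
      Integrable fun x => P (v x) * pd i φ x := by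
    intro v (hv : LocallyIntegrable v volume)
    have hvn : LocallyIntegrable (fun x => ‖v x‖) := fun x => (hv x).norm
    have h1 : Integrable fun x => (|P 0| + K * |v x|) * |pd i φ x| := by
      simp only [add_mul]
      refine Integrable.add ((continuous_const.mul hpdc.abs).integrable_of_hasCompactSupport
        (hasCompactSupport_pd hφs).norm.mul_left) ?_
      have := (hvn.integrable_smul_right_of_hasCompactSupport hpdc.abs (hasCompactSupport_pd hφs).norm).const_mul K
      simpa [mul_assoc, Real.norm_eq_abs] using this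
    refine h1.mono' ((hP.continuous.comp_aestronglyMeasurable hv.aestronglyMeasurable).mul hpdc.aestronglyMeasurable)
      (Eventually.of_forall fun x => ?_)
    rw [norm_mul, Real.norm_eq_abs, Real.norm_eq_abs]
    refine mul_le_mul_of_nonneg_right ?_ (abs_nonneg _)
    have := hlip (v x) 0
    rw [sub_zero] at this
    linarith [abs_sub_abs_le_abs_sub (P (v x)) (P 0)]
  have hIr : ∀ (v w : EuclideanSpace ℝ (Fin d) → ℝ), LocallyIntegrable v volume → LocallyIntegrable w volume →
      Integrable fun x => deriv P (v x) * w x * φ x := by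
    intro v w hv hw
    have hwn : LocallyIntegrable (fun x => ‖w x‖) := fun x => (hw x).norm
    have hb := (hwn.integrable_smul_right_of_hasCompactSupport hφ.continuous.abs hφs.norm).const_mul K
    refine hb.mono' (((hcd.comp_aestronglyMeasurable hv.aestronglyMeasurable).mul hw.aestronglyMeasurable).mul
      hφ.continuous.aestronglyMeasurable) (Eventually.of_forall fun x => ?_)
    simp only [norm_mul, Real.norm_eq_abs, smul_eq_mul, mul_assoc]
    exact mul_le_mul_of_nonneg_right (hK _) (by positivity)
  have hml : ∀ (n : ℕ) (f : EuclideanSpace ℝ (Fin d) → ℝ), LocallyIntegrable f volume → LocallyIntegrable (moll n f) volume := fun n f hf =>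
    (contDiff_moll hf n).continuous.locallyIntegrable
  -- limits on both sides
  have hL : Tendsto (fun n => ∫ x, P (moll n u x) * pd i φ x) atTop (𝓝 (∫ x, P (u x) * pd i φ x)) := by
    rw [tendsto_iff_norm_sub_tendsto_zero]
    refine squeeze_zero (fun n => norm_nonneg _) (fun n => ?_)
      (by simpa using (tendsto_moll_L1 hu1).const_mul (K * M))
    rw [← integral_sub (hIl _ (hml n u h.loc)) (hIl _ h.loc), ← integral_const_mul]
    refine norm_integral_le_of_norm_le (((integrable_moll hu1 n).sub hu1).abs.const_mul _)
      (Eventually.of_forall fun x => ?_)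
    by_cases hx : x ∈ tsupport φ
    · have hxB : x ∈ B := closedBall_subset_closedBall (by linarith) (hR hx)
      rw [← sub_mul, norm_mul, hloc u n x hx, indicator_of_mem hxB, Real.norm_eq_abs, mul_right_comm]
      exact mul_le_mul (hlip _ _) (hM x) (norm_nonneg _) (by positivity)
    · have : pd i φ x = 0 := (pd_congr (notMem_tsupport_iff_eventuallyEq.1 hx)).trans (pd_const 0)
      simp only [this, mul_zero, sub_zero, norm_zero]
      have := (norm_nonneg (pd i φ x)).trans (hM x)
      positivity
  have hR' : Tendsto (fun n => ∫ x, deriv P (moll n u x) * moll n g x * φ x) atTop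
      (𝓝 (∫ x, deriv P (u x) * g x * φ x)) := by
    have hdct : Tendsto (fun n => ∫ x, |deriv P (moll n u x) - deriv P (u x)| * |g x * φ x|) atTop
        (𝓝 (∫ _x : EuclideanSpace ℝ (Fin d), (0 : ℝ))) := by
      refine tendsto_integral_of_dominated_convergence (fun x => 2 * K * |g x * φ x|)
        (fun n => ?_) ?_ (fun n => Eventually.of_forall fun x => ?_) ?_
      · exact (((hcd.comp_aestronglyMeasurable (hml n u h.loc).aestronglyMeasurable).sub
          (hcd.comp_aestronglyMeasurable h.loc.aestronglyMeasurable)).norm).mul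
          ((h.locg.aestronglyMeasurable.mul hφ.continuous.aestronglyMeasurable).norm)
      · have := (h.locg.integrable_smul_right_of_hasCompactSupport hφ.continuous hφs).norm.const_mul (2 * K)
        simpa [mul_comm, abs_mul, mul_left_comm] using this
      · rw [norm_mul, Real.norm_eq_abs, abs_abs, Real.norm_eq_abs, abs_abs]
        exact mul_le_mul_of_nonneg_right ((abs_sub _ _).trans (by linarith [hK (moll n u x), hK (u x)])) (abs_nonneg _)
      · filter_upwards [ae_tendsto_moll h.loc] with x hx
        simpa using ((((hcd.tendsto _).comp hx).sub_const (deriv P (u x))).abs).mul_const |g x * φ x|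
    rw [integral_zero] at hdct
    rw [tendsto_iff_norm_sub_tendsto_zero]
    refine squeeze_zero (fun n => norm_nonneg _) (fun n => ?_)
      (by simpa only [mul_zero, add_zero] using ((tendsto_moll_L1 hg1).const_mul (K * N)).add hdct)
    have hA : Integrable fun x => K * N * |moll n (B.indicator g) x - B.indicator g x| :=
      ((integrable_moll hg1 n).sub hg1).abs.const_mul _
    have hBi : Integrable fun x => |deriv P (moll n u x) - deriv P (u x)| * |g x * φ x| := by
      have := (h.locg.integrable_smul_right_of_hasCompactSupport hφ.continuous hφs).norm.const_mul (2 * K)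
      refine this.mono' ((((hcd.comp_aestronglyMeasurable (hml n u h.loc).aestronglyMeasurable).sub
          (hcd.comp_aestronglyMeasurable h.loc.aestronglyMeasurable)).norm).mul
          ((h.locg.aestronglyMeasurable.mul hφ.continuous.aestronglyMeasurable).norm)) (Eventually.of_forall fun x => ?_)
      rw [norm_mul, Real.norm_eq_abs, abs_abs, Real.norm_eq_abs, abs_abs, smul_eq_mul, Real.norm_eq_abs, mul_comm (g x)]
      exact mul_le_mul_of_nonneg_right ((abs_sub _ _).trans (by linarith [hK (moll n u x), hK (u x)])) (abs_nonneg _)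
    rw [← integral_sub (hIr _ _ (hml n u h.loc) (hml n g h.locg)) (hIr _ _ h.loc h.locg), ← integral_const_mul,
      ← integral_add hA hBi]
    refine norm_integral_le_of_norm_le (hA.add hBi) (Eventually.of_forall fun x => ?_)
    by_cases hx : x ∈ tsupport φ
    · have hxB : x ∈ B := closedBall_subset_closedBall (by linarith) (hR hx)
      rw [hloc g n x hx, indicator_of_mem hxB]
      set a := deriv P (moll n u x)
      set b := deriv P (u x)
      set G := moll n (B.indicator g) x
      rw [Real.norm_eq_abs, show a * G * φ x - b * g x * φ x = a * (G - g x) * φ x + (a - b) * (g x * φ x) by ring]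
      refine (abs_add_le _ _).trans (add_le_add ?_ (abs_mul _ _).le)
      rw [abs_mul, abs_mul, mul_right_comm]
      exact mul_le_mul (mul_le_mul (hK _) (hN x) (abs_nonneg _) hK0) le_rfl (abs_nonneg _)
        (mul_nonneg hK0 ((norm_nonneg _).trans (hN x)))
    · rw [image_eq_zero_of_notMem_tsupport hx]
      simp only [mul_zero, sub_zero, norm_zero, abs_zero]
      exact add_nonneg (mul_nonneg (mul_nonneg hK0 ((norm_nonneg _).trans (hN x))) (abs_nonneg _)) le_rfl
  exact tendsto_nhds_unique hL ((hR'.neg).congr fun n => (hn n).symm)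

end Vale.Agent.P098.Reg.AC
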