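import Vale.Agent.P098.Reg.AC.Step

/-! Lipschitz minimisers have both variations. -/

noncomputable section

namespace Vale.Agent.P098.Reg.AC

open MeasureTheory Set Filter Topology Metric
open scoped ContDiff RealInnerProductSpace NNReal

variable {d : ℕ}

theorem bernoulli_grad (v : Pt d → ℝ) (c : Pt d) (R : ℝ) : bernoulli v (grad v) c R = energy v c R := by
  simp only [bernoulli, energy, gradSq, norm_grad_sq]

theorem bernoulli_congr {v : Pt d → ℝ} {H H' : Pt d → Pt d} (h : H =ᵐ[volume] H') (c : Pt d) (R : ℝ) :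
    bernoulli v H c R = bernoulli v H' c R :=
  integral_congr_ae (ae_restrict_of_ae (h.mono fun x hx => by simp only [hx]))

theorem lipschitz_mul {f g : Pt d → ℝ} (hf : ∃ K, LipschitzWith K f) (hg : ∃ K, LipschitzWith K g)
    (hfb : ∃ M, ∀ x, |f x| ≤ M) (hgb : ∃ M, ∀ x, |g x| ≤ M) :
    ∃ K, LipschitzWith K fun x => f x * g x := by
  obtain ⟨Kf, hKf⟩ := hf
  obtain ⟨Kg, hKg⟩ := hg
  obtain ⟨Mf, hMf⟩ := hfb
  obtain ⟨Mg, hMg⟩ := hgb
  have hf0 : 0 ≤ Mf := (abs_nonneg _).trans (hMf 0)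
  have hg0 : 0 ≤ Mg := (abs_nonneg _).trans (hMg 0)
  refine ⟨⟨Mf * Kg + Kf * Mg, by positivity⟩, LipschitzWith.of_dist_le_mul fun x y => ?_⟩
  show dist (f x * g x) (f y * g y) ≤ (Mf * Kg + Kf * Mg) * dist x y
  rw [Real.dist_eq, show f x * g x - f y * g y = f x * (g x - g y) + (f x - f y) * g y by ring]
  have h1 := hKf.dist_le_mul x y
  have h2 := hKg.dist_le_mul x y
  rw [Real.dist_eq] at h1 h2
  refine (abs_add_le _ _).trans ?_
  rw [abs_mul, abs_mul]
  nlinarith [mul_le_mul (hMf x) h2 (abs_nonneg _) hf0,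
    mul_le_mul h1 (hMg y) (abs_nonneg _) (by positivity)]

theorem lipschitz_test {φ : Pt d → ℝ} (hφ : ContDiff ℝ ∞ φ) (hs : HasCompactSupport φ) :
    (∃ K, LipschitzWith K φ) ∧ ∃ M, ∀ x, |φ x| ≤ M :=
  ⟨ContDiff.lipschitzWith_of_hasCompactSupport hs hφ (by simp),
    hφ.continuous.bounded_above_of_compact_support hs⟩

variable {u : Pt d → ℝ}

theorem abs_pd_le {K : ℝ≥0} (hK : LipschitzWith K u) (i : Fin d) (x : Pt d) : |pd i u x| ≤ K := by
  have h1 := (fderiv ℝ u x).le_opNorm (EuclideanSpace.single i 1)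
  have h2 : ‖fderiv ℝ u x‖ ≤ K := norm_fderiv_le_of_lipschitz ℝ hK
  simp only [PiLp.norm_single, norm_one, mul_one, Real.norm_eq_abs] at h1
  exact h1.trans h2

theorem measurable_grad (u : Pt d → ℝ) : Measurable (grad u) :=
  (PiLp.continuous_toLp 2 _).measurable.comp
    (measurable_pi_lambda _ fun _ => measurable_fderiv_apply_const ℝ u _)

theorem norm_grad_le {K : ℝ≥0} (hK : LipschitzWith K u) (x : Pt d) :
    ‖grad u x‖ ≤ Real.sqrt (d * (K : ℝ) ^ 2) := by
  rw [← Real.sqrt_sq (norm_nonneg (grad u x)), norm_grad_sq]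
  refine Real.sqrt_le_sqrt ?_
  refine (Finset.sum_le_sum fun i _ => ?_).trans_eq (by simp : ∑ _i : Fin d, (K : ℝ) ^ 2 = d * (K : ℝ) ^ 2)
  rw [← sq_abs]
  exact pow_le_pow_left₀ (abs_nonneg _) (abs_pd_le hK i x) 2

theorem memLp_grad {K : ℝ≥0} (hK : LipschitzWith K u) (c : Pt d) (R : ℝ) :
    MemLp (grad u) 2 (volume.restrict (ball c R)) := by
  haveI : IsFiniteMeasure (volume.restrict (ball c R)) := isFiniteMeasure_restrict.2 measure_ball_lt_top.ne
  exact MemLp.of_bound (measurable_grad u).aestronglyMeasurable _ (Eventually.of_forall (norm_grad_le hK))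

theorem weakPd_lip {K : ℝ≥0} (hK : LipschitzWith K u) (i : Fin d) :
    WeakPd i u (fun x => grad u x i) := by
  have hb : LocallyIntegrable fun x => grad u x i := fun x => by
    refine ⟨closedBall x 1, closedBall_mem_nhds x one_pos, ?_⟩
    exact (integrableOn_const (C := (K : ℝ)) (measure_closedBall_lt_top).ne).mono'
      (measurable_fderiv_apply_const ℝ u _).aestronglyMeasurable.restrict
      (Eventually.of_forall fun y => abs_pd_le hK i y)
  refine ⟨hK.continuous.locallyIntegrable, hb, fun φ hφ hs => ?_⟩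
  obtain ⟨D, hD⟩ := (lipschitz_test hφ hs).1
  have h := LipschitzWith.integral_lineDeriv_mul_eq (μ := volume) hK hD hs (EuclideanSpace.single i 1)
  have e1 : ∀ᵐ x, lineDeriv ℝ u x (EuclideanSpace.single i 1) * φ x = grad u x i * φ x := by
    filter_upwards [hK.ae_differentiableAt (μ := volume)] with x hx
    rw [hx.lineDeriv_eq_fderiv]; rfl
  have e2 : ∀ x, lineDeriv ℝ φ x (-(EuclideanSpace.single i (1 : ℝ))) * u x = -(u x * pd i φ x) := fun x => by
    rw [(hφ.differentiable (by simp) x).lineDeriv_eq_fderiv, map_neg, pd]; ring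
  rw [integral_congr_ae e1, integral_congr_ae (Eventually.of_forall e2), integral_neg] at h
  linarith

theorem lmin_vary (h : LMin u) : Vary u (grad u) := by
  obtain ⟨K, hK⟩ := h.lip
  refine vary_of_min (Eventually.of_forall h.nonneg) hK.continuous.aestronglyMeasurable
    (measurable_grad u).aestronglyMeasurable (weakPd_lip hK) (memLp_grad hK 0) ?_ ?_
  · intro φ hφ hs h0 ε hε R hR
    obtain ⟨⟨D, hD⟩, -⟩ := lipschitz_test hφ hs
    rw [bernoulli_grad]
    refine (h.le_energy 0 R (fun x => u x + ε * φ x) ?_ (fun x => by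
      have := h0 x; have := h.nonneg x; positivity) (tsupport φ) hs hR fun x hx => by
      simp [image_eq_zero_of_notMem_tsupport hx]).trans_eq ?_
    · exact ⟨_, hK.add ((lipschitzWith_smul ε).comp hD)⟩
    rw [← bernoulli_grad]
    refine bernoulli_congr ?_ 0 R
    filter_upwards [hK.ae_differentiableAt (μ := volume)] with x hx
    have hφx := hφ.differentiable (by simp) x
    ext i
    simp only [PiLp.add_apply, PiLp.smul_apply, grad_apply, smul_eq_mul]
    rw [pd_add hx (hφx.const_mul ε), pd_const_mul ε hφx]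
  · intro φ hφ hs h0 δ hδ ε hε hok R hR
    obtain ⟨hφl, hφb⟩ := lipschitz_test hφ hs
    obtain ⟨L, hL0, hL⟩ := deriv_cut_bound δ hδ
    have hcl : LipschitzWith ⟨L, hL0⟩ (cut δ) :=
      lipschitzWith_of_nnnorm_deriv_le ((contDiff_cut (δ := δ)).differentiable (by simp))
        fun t => (show (‖deriv (cut δ) t‖₊ : ℝ) ≤ L by rw [coe_nnnorm, Real.norm_eq_abs]; exact hL t)
    obtain ⟨D, hD⟩ := lipschitz_mul hφl ⟨_, hcl.comp hK⟩ hφb
      ⟨1, fun x => by rw [Function.comp_apply, abs_of_nonneg (cut_nonneg _ _)]; exact cut_le_one _ _⟩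
    rw [bernoulli_grad]
    refine (h.le_energy 0 R (fun x => u x - ε * (φ x * cut δ (u x))) ?_ (fun x => by
      have := hok x (u x) (h.nonneg x); linarith) (tsupport φ) hs hR fun x hx => by
      simp [image_eq_zero_of_notMem_tsupport hx]).trans_eq ?_
    · exact ⟨_, hK.sub ((lipschitzWith_smul ε).comp hD)⟩
    rw [← bernoulli_grad]
    refine bernoulli_congr ?_ 0 R
    filter_upwards [hK.ae_differentiableAt (μ := volume)] with x hx
    have hφx := hφ.differentiable (by simp) x
    have hcx : DifferentiableAt ℝ (fun y => cut δ (u y)) x :=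
      ((contDiff_cut (δ := δ)).differentiable (by simp) _).comp x hx
    ext i
    simp only [PiLp.add_apply, PiLp.smul_apply, PiLp.neg_apply, downW, grad_apply, smul_eq_mul]
    rw [pd_sub hx ((hφx.fun_mul hcx).const_mul ε), pd_const_mul ε (hφx.fun_mul hcx), pd_mul hφx hcx,
      pd_comp ((contDiff_cut (δ := δ)).differentiable (by simp) _) hx]
    ring

end Vale.Agent.P098.Reg.AC
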