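import Vale.Agent.P098.Reg.AC.Lip

/-! Nondegeneracy: a cut-off competitor makes a small minimiser vanish on the half ball. -/

noncomputable section

namespace Vale.Agent.P098.Reg.AC

open MeasureTheory Set Filter Topology Metric
open scoped ContDiff RealInnerProductSpace

variable {d : ℕ}

/-- The reference cut-off. -/
def chiBump (d : ℕ) : ContDiffBump (0 : Pt d) := ⟨1 / 2, 1, by norm_num, by norm_num⟩

/-- The rescaled cut-off. -/
def chi (r : ℝ) (x y : Pt d) : ℝ := chiBump d (r⁻¹ • (y - x))

theorem chi_facts : ∃ C, 0 ≤ C ∧ ∀ r : ℝ, 0 < r → ∀ x : Pt d,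
    ContDiff ℝ ∞ (chi r x) ∧ tsupport (chi r x) ⊆ closedBall x r ∧ HasCompactSupport (chi r x) ∧
    (∀ y, 0 ≤ chi r x y ∧ chi r x y ≤ 1) ∧ (∀ y ∈ closedBall x (r / 2), chi r x y = 1) ∧
    ∀ y, ‖grad (chi r x) y‖ ^ 2 ≤ C / r ^ 2 := by
  have hd : ContDiff ℝ ∞ (chiBump d : Pt d → ℝ) := (chiBump d).contDiff
  obtain ⟨M, hM⟩ := (continuous_grad hd).bounded_above_of_compact_support
    (hasCompactSupport_grad (chiBump d).hasCompactSupport)
  refine ⟨M ^ 2, sq_nonneg M, fun r hr x => ?_⟩
  have hsupp : tsupport (chi r x) ⊆ closedBall x r := closure_minimal (fun y hy => by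
    rw [mem_closedBall]
    by_contra h
    refine hy ((chiBump d).zero_of_le_dist ?_)
    rw [dist_zero_right, norm_rescale hr]
    exact ((one_lt_div hr).2 (not_le.1 h)).le) isClosed_closedBall
  refine ⟨hd.comp ((contDiff_id.sub contDiff_const).const_smul r⁻¹), hsupp,
    (isCompact_closedBall x r).of_isClosed_subset (isClosed_tsupport _) hsupp,
    fun y => ⟨(chiBump d).nonneg, (chiBump d).le_one⟩, fun y hy => ?_, fun y => ?_⟩
  · refine (chiBump d).one_of_mem_closedBall ?_
    rw [mem_closedBall_zero_iff, norm_rescale hr]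
    show dist y x / r ≤ 1 / 2
    rw [div_le_iff₀ hr]
    linarith [mem_closedBall.1 hy]
  · have : grad (chi r x) y = r⁻¹ • grad (chiBump d : Pt d → ℝ) (r⁻¹ • (y - x)) := by
      ext i
      simp only [grad_apply, PiLp.smul_apply, smul_eq_mul]
      exact AC.pd_rescale (hd.differentiable (by simp)) r i x y
    rw [this, norm_smul, mul_pow, norm_inv, Real.norm_of_nonneg hr.le, inv_pow, inv_mul_eq_div]
    exact div_le_div_of_nonneg_right (pow_le_pow_left₀ (norm_nonneg _) (hM _) 2) (sq_nonneg r)

theorem scalar_key {a b t : ℝ} (ha : 0 ≤ a) (hb : 0 ≤ b) (ht : 0 ≤ t) (ht1 : t ≤ 1) :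
    ((1 - t ^ 2) * a + 2 * t * b) ^ 2 ≤ a ^ 2 + 8 * b ^ 2 := by
  have ht2 : t ^ 2 ≤ 1 := pow_le_one₀ ht ht1
  nlinarith [sq_nonneg (t * a - 2 * (1 - t ^ 2) * b), mul_nonneg (sq_nonneg t) (sub_nonneg.2 ht2),
    mul_nonneg (mul_nonneg (sq_nonneg a) (sq_nonneg t)) (sub_nonneg.2 ht2), sq_nonneg b,
    mul_nonneg (sq_nonneg b) (sub_nonneg.2 ht2), mul_nonneg (mul_nonneg ha hb) ht]

/-- The measure of the positive phase shrinks. -/
theorem pos_shrink : ∃ C, 0 ≤ C ∧ ∀ u : Pt d → ℝ, LMin u → ∀ (x : Pt d) (r c : ℝ), 0 < r →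
    (∀ y ∈ ball x r, u y ≤ c * r) →
    volume.real ({y | 0 < u y} ∩ closedBall x (r / 4)) ≤ C * c ^ 2 * r ^ d := by
  obtain ⟨C, hC0, hC⟩ := chi_facts (d := d)
  set V := volume.real (closedBall (0 : Pt d) 1)
  refine ⟨32 * C * V, by positivity, fun u h x r c hr hle => ?_⟩
  obtain ⟨hcd, hsupp, hcs, h01, hone, hgr⟩ := hC (r / 2) (half_pos hr) x
  obtain ⟨K, hK⟩ := h.lip
  set χ := chi (r / 2) x
  have hsub : closedBall x (r / 2) ⊆ ball x r := closedBall_subset_ball (by linarith)
  set v := fun y => u y * (1 - χ y ^ 2)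
  have hv0 : ∀ y, 0 ≤ v y := fun y =>
    mul_nonneg (h.nonneg y) (by nlinarith [(h01 y).1, (h01 y).2])
  obtain ⟨hχl, hχb⟩ := lipschitz_test hcd hcs
  obtain ⟨hχ2l, hχ2b⟩ := lipschitz_test (hcd.pow 2) (hcs.comp_left (g := fun t : ℝ => t ^ 2) (by simp))
  have hvlip : ∃ K, LipschitzWith K v := by
    obtain ⟨Mu, hMu⟩ :=
      (isCompact_closedBall x (r / 2)).exists_bound_of_continuousOn hK.continuous.continuousOn
    -- only the bounded piece of `u` below the cut-off matters
    obtain ⟨D, hD⟩ := lipschitz_mul (f := fun y => min (u y) |Mu|) (g := fun y => χ y ^ 2)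
      ⟨_, hK.min (LipschitzWith.const |Mu|)⟩ hχ2l
      ⟨|Mu|, fun y => by rw [abs_of_nonneg (le_min (h.nonneg y) (abs_nonneg _))]; exact min_le_right _ _⟩ hχ2b
    have e : v = fun y => u y - min (u y) |Mu| * χ y ^ 2 := funext fun y => by
      by_cases hy : χ y = 0
      · simp [v, hy]
      · have := hMu y (hsupp (subset_tsupport _ hy))
        rw [Real.norm_eq_abs] at this
        rw [min_eq_left ((le_abs_self _).trans (this.trans (le_abs_self Mu)))]
        simp only [v]; ring
    rw [e]
    exact ⟨_, hK.sub hD⟩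
  have hEle := h.le_energy x r v hvlip hv0 (closedBall x (r / 2)) (isCompact_closedBall _ _) hsub
    fun y hy => by simp [v, image_eq_zero_of_notMem_tsupport fun hh => hy (hsupp hh)]
  set P := {y : Pt d | 0 < u y}
  set A := {y : Pt d | 0 < u y} ∩ closedBall x (r / 4)
  have hPm : MeasurableSet P := measurableSet_lt measurable_const hK.continuous.measurable
  have hAm : MeasurableSet A := hPm.inter measurableSet_closedBall
  set b := 8 * C / (r / 2) ^ 2 * (c * r) ^ 2
  have hi : ∀ {w : Pt d → ℝ} {L : NNReal}, LipschitzWith L w →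
      IntegrableOn (fun y => gradSq w y + {z | 0 < w z}.indicator (fun _ => (1 : ℝ)) y) (ball x r) := fun {w L} hw =>
    (((memLp_grad hw x r).norm.integrable_sq).congr (Eventually.of_forall fun y => norm_grad_sq w y)).add
      (integrable_pos hw.continuous.aestronglyMeasurable)
  obtain ⟨L, hL⟩ := hvlip
  haveI : IsFiniteMeasure (volume.restrict (ball x r)) := isFiniteMeasure_restrict.2 measure_ball_lt_top.ne
  have hiA : IntegrableOn (A.indicator fun _ => (1 : ℝ)) (ball x r) :=
    (integrable_const (1 : ℝ)).indicator hAm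
  have hib : IntegrableOn (P.indicator fun _ => b) (ball x r) := (integrable_const b).indicator hPm
  have hpt : ∀ᵐ y, y ∈ ball x r → gradSq v y + {z | 0 < v z}.indicator (fun _ => (1 : ℝ)) y ≤
      (gradSq u y + P.indicator (fun _ => (1 : ℝ)) y) + (P.indicator (fun _ => b) y - A.indicator (fun _ => (1 : ℝ)) y) := by
    filter_upwards [hK.ae_differentiableAt (μ := volume)] with y hy hyB
    have hχd := hcd.differentiable (by simp) y
    have hsq : DifferentiableAt ℝ (fun z => χ z ^ 2) y := hχd.pow 2
    have eg : grad v y = (1 - χ y ^ 2) • grad u y - (2 * χ y) • (u y • grad χ y) := by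
      ext i
      simp only [PiLp.sub_apply, PiLp.smul_apply, smul_eq_mul, grad_apply, v]
      rw [pd_mul hy (show DifferentiableAt ℝ (fun z => 1 - χ z ^ 2) y from (differentiableAt_const (1 : ℝ)).sub hsq),
        pd_sub (differentiableAt_const (1 : ℝ)) hsq, pd_const]
      rw [show pd i (fun z => χ z ^ 2) y = 2 * χ y * pd i χ y by
        rw [pd_comp (φ := fun t : ℝ => t ^ 2) (differentiableAt_pow 2) hχd]; simp]
      ring
    have hub : u y ≤ c * r := hle y hyB
    have hgv : gradSq v y ≤ gradSq u y + P.indicator (fun _ => b) y := by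
      rw [gradSq, gradSq, ← norm_grad_sq, ← norm_grad_sq, eg]
      have hn : ‖(1 - χ y ^ 2) • grad u y - (2 * χ y) • (u y • grad χ y)‖ ≤
          (1 - χ y ^ 2) * ‖grad u y‖ + 2 * χ y * (u y * ‖grad χ y‖) := by
        refine (norm_sub_le _ _).trans_eq ?_
        rw [norm_smul, norm_smul, norm_smul, Real.norm_of_nonneg, Real.norm_of_nonneg, Real.norm_of_nonneg (h.nonneg y)]
        · linarith [(h01 y).1]
        · nlinarith [(h01 y).1, (h01 y).2]
      refine (pow_le_pow_left₀ (norm_nonneg _) hn 2).trans ((scalar_key (norm_nonneg _)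
        (mul_nonneg (h.nonneg y) (norm_nonneg _)) (h01 y).1 (h01 y).2).trans (add_le_add le_rfl ?_))
      rcases (h.nonneg y).lt_or_eq with hp | hp
      · rw [indicator_of_mem (show y ∈ P from hp), mul_pow]
        have := mul_le_mul (pow_le_pow_left₀ (h.nonneg y) hub 2) (hgr y) (sq_nonneg _) (sq_nonneg _)
        calc 8 * (u y ^ 2 * ‖grad χ y‖ ^ 2) ≤ 8 * ((c * r) ^ 2 * (C / (r / 2) ^ 2)) := by linarith
          _ = b := by simp only [b]; ring
      · rw [indicator_of_notMem (show y ∉ P from fun hh : 0 < u y => by linarith), ← hp]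
        simp
    have hind : {z | 0 < v z}.indicator (fun _ => (1 : ℝ)) y ≤
        P.indicator (fun _ => (1 : ℝ)) y - A.indicator (fun _ => (1 : ℝ)) y := by
      by_cases hA : y ∈ A
      · rw [indicator_of_mem hA, indicator_of_mem (show y ∈ P from hA.1), sub_self, indicator_of_notMem]
        intro hvy
        have : 0 < v y := hvy
        simp [v, χ, hone y (by simpa [show r / 2 / 2 = r / 4 by ring] using hA.2)] at this
      · rw [indicator_of_notMem hA, sub_zero]
        refine indicator_le_indicator_of_subset (fun z hz => ?_) (fun _ => zero_le_one) y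
        show 0 < u z
        rcases (h.nonneg z).lt_or_eq with hp | hp
        · exact hp
        · have : 0 < v z := hz
          simp [v, ← hp] at this
    linarith
  have key : energy v x r ≤ ∫ y in ball x r,
      ((gradSq u y + P.indicator (fun _ => (1 : ℝ)) y) + (P.indicator (fun _ => b) y - A.indicator (fun _ => (1 : ℝ)) y)) :=
    setIntegral_mono_ae_restrict (hi hL) ((hi hK).add (hib.sub hiA))
      ((ae_restrict_iff' measurableSet_ball).2 hpt)
  have hAsub : A ⊆ ball x r := inter_subset_right.trans (closedBall_subset_ball (by linarith))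
  have hE := hEle.trans key
  have hQ : IntegrableOn (fun y => P.indicator (fun _ => b) y - A.indicator (fun _ => (1 : ℝ)) y) (ball x r) :=
    hib.sub hiA
  rw [integral_add (hi hK) hQ, integral_sub hib hiA] at hE
  change energy u x r ≤ energy u x r + _ at hE
  rw [setIntegral_indicator hAm, inter_eq_right.2 hAsub, setIntegral_const, smul_eq_mul, mul_one,
    setIntegral_indicator hPm, setIntegral_const, smul_eq_mul] at hE
  have hP : volume.real (ball x r ∩ P) ≤ r ^ d * V :=
    (measureReal_mono (inter_subset_left.trans ball_subset_closedBall) measure_closedBall_lt_top.ne).trans_eq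
      (volReal_closedBall hr.le x)
  have hb0 : 0 ≤ b := by positivity
  have hb : b = 32 * C * c ^ 2 := by simp only [b]; field_simp; ring
  have := mul_le_mul_of_nonneg_right hP hb0
  rw [hb] at this hE
  nlinarith

/-- Nondegeneracy. -/
theorem nondeg (d : ℕ) [NeZero d] : ∃ c > 0, ∀ u : Pt d → ℝ, LMin u → ∀ (x : Pt d) (r : ℝ), 0 < r →
    (∀ y ∈ ball x r, u y ≤ c * r) → ∀ y ∈ ball x (r / 2), u y = 0 := by
  obtain ⟨C, hC0, hC⟩ := pos_shrink (d := d)
  obtain ⟨M, hM0, hM⟩ := eta_bounded (d := d)
  set K := M * 8 ^ d * C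
  set c := 1 / (8 * (K + 1))
  have hc : 0 < c := by positivity
  refine ⟨c / 2, half_pos hc, fun u h x r hr hle y hy => ?_⟩
  obtain ⟨Ku, hKu⟩ := h.lip
  have T : Tame u := (lmin_vary h).tame
  have step : ∀ z s, 0 < s → (∀ w ∈ ball z s, u w ≤ c * s) → ∀ w ∈ ball z (s / 8), u w ≤ c * (s / 8) := by
    intro z s hs hsle w hw
    have hA := hC u h z s c hs hsle
    refine (T.le_avg hKu.continuous w (show (0:ℝ) < s / 8 by linarith)).trans ?_
    have hAm : MeasurableSet ({q | 0 < u q} ∩ closedBall z (s / 4)) :=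
      (measurableSet_lt measurable_const hKu.continuous.measurable).inter measurableSet_closedBall
    have h2 : avg u w (s / 8) ≤ M / (s / 8) ^ d * (c * s) * volume.real ({q | 0 < u q} ∩ closedBall z (s / 4)) := by
      rw [mul_comm, ← smul_eq_mul, ← setIntegral_const, ← integral_indicator hAm]
      refine integral_mono (integrable_ker_mul T.loc (by linarith) w)
        ((integrable_indicator_iff hAm).2 (integrableOn_const ((measure_mono inter_subset_right).trans_lt measure_closedBall_lt_top).ne))
        fun q => ?_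
      by_cases hq : q ∈ {q | 0 < u q} ∩ closedBall z (s / 4)
      · rw [indicator_of_mem hq]
        exact mul_le_mul (ker_le hM (by linarith) _ _)
          (hsle q (closedBall_subset_ball (by linarith) hq.2)) (h.nonneg q) (by positivity)
      · rw [indicator_of_notMem hq]
        rcases not_and_or.1 hq with hq | hq
        · have : u q = 0 := le_antisymm (not_lt.1 hq) (h.nonneg q)
          simp [this]
        · rw [ker_eq_zero (by linarith) ?_, zero_mul]
          simp only [mem_closedBall, not_le] at hq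
          linarith [dist_triangle q w z, mem_ball.1 hw]
    refine h2.trans ((mul_le_mul_of_nonneg_left hA (by positivity)).trans ?_)
    have hK : K * c ≤ 1 / 8 := by
      show K * (1 / (8 * (K + 1))) ≤ 1 / 8
      rw [mul_one_div, div_le_div_iff₀ (by positivity) (by norm_num)]
      nlinarith [show 0 ≤ K by positivity]
    have hc1 : c ≤ 1 := by
      show 1 / (8 * (K + 1)) ≤ 1
      rw [div_le_one (by positivity)]
      nlinarith [show 0 ≤ K by positivity]
    have e : M / (s / 8) ^ d * (c * s) * (C * c ^ 2 * s ^ d) = K * c * c * (c * s) := by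
      simp only [K, div_pow]
      field_simp
    rw [e]
    have : K * c * c ≤ 1 / 8 := by nlinarith [show 0 ≤ K * c by positivity]
    nlinarith [mul_pos hc hs]
  have iter : ∀ n : ℕ, ∀ w ∈ ball y (r / 2 / 8 ^ n), u w ≤ c * (r / 2 / 8 ^ n) := by
    intro n
    induction n with
    | zero =>
      intro w hw
      simp only [pow_zero, div_one] at hw ⊢
      have := hle w (mem_ball.2 (by linarith [dist_triangle w y x, mem_ball.1 hw, mem_ball.1 hy]))
      linarith
    | succ n ih =>
      rw [pow_succ, ← div_div]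
      exact step y _ (by positivity) ih
  refine le_antisymm (ge_of_tendsto' (f := fun n : ℕ => c * (r / 2 / 8 ^ n)) (x := atTop) ?_
    (fun n => iter n y (mem_ball_self (by positivity)))) (h.nonneg y)
  have : Tendsto (fun n : ℕ => c * (r / 2) * (1 / 8 : ℝ) ^ n) atTop (𝓝 (c * (r / 2) * 0)) :=
    (tendsto_pow_atTop_nhds_zero_of_lt_one (by norm_num) (by norm_num)).const_mul _
  rw [mul_zero] at this
  refine this.congr fun n => ?_
  rw [one_div_pow]; ring

end Vale.Agent.P098.Reg.AC
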