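import Vale.Agent.P098.Reg.AC.Avg

/-! The continuous representative of a tame function, its growth and its universal Lipschitz bound. -/

noncomputable section

namespace Vale.Agent.P098.Reg.AC

open MeasureTheory Set Filter Topology Metric
open scoped ContDiff

variable {d : ℕ} {u : EuclideanSpace ℝ (Fin d) → ℝ} {x : EuclideanSpace ℝ (Fin d)}

theorem Tame.congr {v : EuclideanSpace ℝ (Fin d) → ℝ} (T : Tame u) (h : u =ᵐ[volume] v) : Tame v := by
  have hmu : ∀ φ, mu v φ = mu u φ := fun φ =>
    integral_congr_ae (h.mono fun y hy => by simp only [hy])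
  refine ⟨T.loc.congr h, fun φ a b c => (hmu φ).symm ▸ T.mu_nonneg φ a b c, fun φ a b c => ?_⟩
  rw [hmu]
  refine (T.mu_le φ a b c).trans_eq ?_
  congr 2
  exact measureReal_congr (Filter.EventuallyEq.inter (h.mono fun y hy => propext (by show u y = 0 ↔ v y = 0; rw [hy])) Filter.EventuallyEq.rfl)

theorem integral_ker [NeZero d] {r : ℝ} (hr : 0 < r) (x : EuclideanSpace ℝ (Fin d)) :
    ∫ y, ker r x y = 1 := by
  simp only [ker, integral_div]
  rw [integral_sub_right_eq_self (fun y => eta (r⁻¹ • y)) x,
    Measure.integral_comp_inv_smul volume (eta (d := d)) r, finrank_euclideanSpace_fin,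
    abs_of_pos (pow_pos hr d), integral_eta, smul_eq_mul, mul_one, div_self (pow_pos hr d).ne']

theorem integrable_ker {r : ℝ} (hr : 0 < r) (x : EuclideanSpace ℝ (Fin d)) : Integrable (ker r x) := by
  simpa using integrable_ker_mul (u := fun _ => (1 : ℝ)) (continuous_const.locallyIntegrable) hr x

theorem ker_nonneg [NeZero d] {r : ℝ} (hr : 0 < r) (x y : EuclideanSpace ℝ (Fin d)) : 0 ≤ ker r x y :=
  div_nonneg (eta_nonneg _) (pow_nonneg hr.le d)

theorem ker_le {M : ℝ} (hM : ∀ z : EuclideanSpace ℝ (Fin d), |eta z| ≤ M) {r : ℝ} (hr : 0 < r)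
    (x y : EuclideanSpace ℝ (Fin d)) : ker r x y ≤ M / r ^ d :=
  div_le_div_of_nonneg_right ((le_abs_self _).trans (hM _)) (pow_nonneg hr.le d)

/-- A bound on `u` in a ball bounds the average there. -/
theorem avg_le_of_le [NeZero d] (hu : LocallyIntegrable u) {r : ℝ} (hr : 0 < r) {C : ℝ}
    (h : ∀ y ∈ closedBall x r, u y ≤ C) : avg u x r ≤ C := by
  calc avg u x r ≤ ∫ y, ker r x y * C := by
        refine integral_mono (integrable_ker_mul hu hr x) ((integrable_ker hr x).mul_const C) fun y => ?_
        by_cases hy : y ∈ closedBall x r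
        · exact mul_le_mul_of_nonneg_left (h y hy) (ker_nonneg hr x y)
        · simp [ker_eq_zero hr (show r < dist y x by simpa using hy)]
    _ = C := by rw [integral_mul_const, integral_ker hr, one_mul]

theorem le_avg_of_le [NeZero d] (hu : LocallyIntegrable u) {r : ℝ} (hr : 0 < r) {C : ℝ}
    (h : ∀ y ∈ closedBall x r, C ≤ u y) : C ≤ avg u x r := by
  calc C = ∫ y, ker r x y * C := by rw [integral_mul_const, integral_ker hr, one_mul]
    _ ≤ avg u x r := by
        refine integral_mono ((integrable_ker hr x).mul_const C) (integrable_ker_mul hu hr x) fun y => ?_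
        by_cases hy : y ∈ closedBall x r
        · exact mul_le_mul_of_nonneg_left (h y hy) (ker_nonneg hr x y)
        · simp [ker_eq_zero hr (show r < dist y x by simpa using hy)]

/-- The representative: the limit of the monotone averages. -/
def rep (u : EuclideanSpace ℝ (Fin d) → ℝ) (x : EuclideanSpace ℝ (Fin d)) : ℝ :=
  sInf (avg u x '' Ioi 0)

theorem Tame.bddBelow_avg [NeZero d] (T : Tame u) (x : EuclideanSpace ℝ (Fin d)) :
    BddBelow (avg u x '' Ioi 0) := by
  refine ⟨avg u x 1 - slope0 d, ?_⟩
  rintro _ ⟨r, hr, rfl⟩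
  rcases le_total r 1 with h | h
  · have := T.avg_sub_le_one x hr h
    nlinarith [slope0_nonneg (d := d), show (0:ℝ) < r from hr]
  · have := T.avg_mono x (mem_Ioi.2 one_pos) hr h
    linarith [slope0_nonneg (d := d)]

theorem Tame.rep_le_avg [NeZero d] (T : Tame u) (x : EuclideanSpace ℝ (Fin d)) {r : ℝ} (hr : 0 < r) :
    rep u x ≤ avg u x r :=
  csInf_le (T.bddBelow_avg x) ⟨r, hr, rfl⟩

theorem Tame.avg_le_rep [NeZero d] (T : Tame u) (x : EuclideanSpace ℝ (Fin d)) {r : ℝ} (hr : 0 < r) :
    avg u x r ≤ rep u x + slope0 d * r := by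
  suffices avg u x r - slope0 d * r ≤ rep u x by linarith
  refine le_csInf (Nonempty.image _ ⟨r, hr⟩) ?_
  rintro _ ⟨s, hs, rfl⟩
  rcases le_total s r with h | h
  · have := T.avg_sub_le_one x hs h
    nlinarith [slope0_nonneg (d := d), show (0:ℝ) < s from hs]
  · have := T.avg_mono x hr hs h
    nlinarith [slope0_nonneg (d := d)]

theorem Tame.continuous_rep [NeZero d] (T : Tame u) : Continuous (rep u) := by
  refine TendstoUniformly.continuous (F := fun (n : ℕ) x => avg u x (1 / (n + 1))) (p := atTop) ?_
    (Eventually.of_forall fun n => continuous_avg T.loc Nat.one_div_pos_of_nat).frequently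
  rw [Metric.tendstoUniformly_iff]
  intro ε hε
  have : Tendsto (fun n : ℕ => slope0 d * (1 / (n + 1 : ℝ))) atTop (𝓝 0) := by
    simpa using (tendsto_one_div_add_atTop_nhds_zero_nat (𝕜 := ℝ)).const_mul (slope0 d)
  filter_upwards [this.eventually (gt_mem_nhds hε)] with n hn x
  rw [Real.dist_eq, abs_sub_lt_iff]
  have h1 := T.rep_le_avg x (r := 1 / ((n : ℝ) + 1)) Nat.one_div_pos_of_nat
  have h2 := T.avg_le_rep x (r := 1 / ((n : ℝ) + 1)) Nat.one_div_pos_of_nat
  constructor <;> linarith

theorem Tame.tendsto_avg [NeZero d] (T : Tame u) (x : EuclideanSpace ℝ (Fin d)) :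
    Tendsto (avg u x) (𝓝[>] 0) (𝓝 (rep u x)) := by
  refine tendsto_of_tendsto_of_tendsto_of_le_of_le' (g := fun _ => rep u x)
    (h := fun r => rep u x + slope0 d * r) tendsto_const_nhds ?_
    (eventually_of_mem self_mem_nhdsWithin fun r hr => T.rep_le_avg x hr)
    (eventually_of_mem self_mem_nhdsWithin fun r hr => T.avg_le_rep x hr)
  have : Continuous fun r : ℝ => rep u x + slope0 d * r := by fun_prop
  simpa using (this.tendsto 0).mono_left nhdsWithin_le_nhds

theorem Tame.ae_eq_rep [NeZero d] (T : Tame u) : u =ᵐ[volume] rep u := by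
  obtain ⟨M, hM0, hM⟩ := eta_bounded (d := d)
  filter_upwards [(Besicovitch.vitaliFamily (volume : Measure (EuclideanSpace ℝ (Fin d)))).ae_tendsto_average_norm_sub
    T.loc] with x hx
  have h0 := hx.comp (Besicovitch.tendsto_filterAt volume x)
  refine tendsto_nhds_unique ?_ (T.tendsto_avg x)
  set V := volume.real (closedBall (0 : EuclideanSpace ℝ (Fin d)) 1)
  have hb : ∀ r ∈ Ioi (0 : ℝ), |avg u x r - u x| ≤ M * V * ⨍ y in closedBall x r, ‖u y - u x‖ := by
    intro r hr
    have hr : 0 < r := hr
    have hV : 0 < V := ENNReal.toReal_pos (measure_closedBall_pos volume 0 one_pos).ne'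
      measure_closedBall_lt_top.ne
    have hi : IntegrableOn (fun y => ‖u y - u x‖) (closedBall x r) :=
      ((T.loc.integrableOn_isCompact (isCompact_closedBall x r)).sub
        (continuous_const.continuousOn.integrableOn_compact (isCompact_closedBall x r))).norm
    have e : avg u x r - u x = ∫ y, ker r x y * (u y - u x) := by
      simp only [avg, mul_sub]
      rw [integral_sub (integrable_ker_mul T.loc hr x) ((integrable_ker hr x).mul_const _),
        integral_mul_const, integral_ker hr, one_mul]
    rw [e, setAverage_eq, smul_eq_mul, volReal_closedBall hr.le]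
    refine ((Real.norm_eq_abs _).symm.le.trans (norm_integral_le_of_norm_le (hi.integrable_indicator measurableSet_closedBall |>.const_mul (M / r ^ d))
      (Eventually.of_forall fun y => ?_))).trans_eq ?_
    · by_cases hy : y ∈ closedBall x r
      · rw [indicator_of_mem hy, norm_mul, Real.norm_of_nonneg (ker_nonneg hr x y)]
        exact mul_le_mul_of_nonneg_right (ker_le hM hr x y) (norm_nonneg _)
      · simp [ker_eq_zero hr (show r < dist y x by simpa using hy), indicator_of_notMem hy]
    · rw [integral_const_mul, integral_indicator measurableSet_closedBall]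
      have hr0 : r ^ d ≠ 0 := (pow_pos hr d).ne'
      simp only [V] at hV ⊢
      field_simp
  refine tendsto_iff_norm_sub_tendsto_zero.2 (squeeze_zero' (Eventually.of_forall fun _ => norm_nonneg _)
    (eventually_of_mem self_mem_nhdsWithin hb) ?_)
  simpa using h0.const_mul (M * V)

variable (hc : Continuous u)
include hc

theorem Tame.rep_eq [NeZero d] (T : Tame u) (x : EuclideanSpace ℝ (Fin d)) : rep u x = u x := by
  refine tendsto_nhds_unique (T.tendsto_avg x) ?_
  rw [Metric.tendsto_nhds]
  intro ε hε
  obtain ⟨δ, hδ, hδ'⟩ := Metric.continuousAt_iff.1 (hc.continuousAt (x := x)) (ε / 2) (half_pos hε)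
  filter_upwards [Ioo_mem_nhdsGT hδ] with r hr
  have key : ∀ y ∈ closedBall x r, |u y - u x| ≤ ε / 2 := fun y hy => by
    have := hδ' ((mem_closedBall.1 hy).trans_lt hr.2)
    rw [Real.dist_eq] at this
    exact this.le
  rw [Real.dist_eq, abs_sub_lt_iff]
  have h1 := avg_le_of_le T.loc hr.1 (x := x) (C := u x + ε / 2) fun y hy => by
    linarith [(abs_le.1 (key y hy)).2]
  have h2 := le_avg_of_le T.loc hr.1 (x := x) (C := u x - ε / 2) fun y hy => by
    linarith [(abs_le.1 (key y hy)).1]
  constructor <;> linarith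

theorem Tame.le_avg [NeZero d] (T : Tame u) (x : EuclideanSpace ℝ (Fin d)) {r : ℝ} (hr : 0 < r) :
    u x ≤ avg u x r := by
  rw [← T.rep_eq hc x]; exact T.rep_le_avg x hr

theorem Tame.avg_le [NeZero d] (T : Tame u) (x : EuclideanSpace ℝ (Fin d)) {r : ℝ} (hr : 0 < r) :
    avg u x r ≤ u x + slope0 d * r := by
  rw [← T.rep_eq hc x]; exact T.avg_le_rep x hr

omit hc

/-- Constant of the pointwise growth estimate. -/
theorem growth (d : ℕ) [NeZero d] : ∃ L, 0 ≤ L ∧ ∀ u : EuclideanSpace ℝ (Fin d) → ℝ, Tame u →
    Continuous u → (∀ y, 0 ≤ u y) → ∀ x0, u x0 = 0 → ∀ y, u y ≤ L * dist y x0 := by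
  obtain ⟨M, hM0, hM⟩ := eta_bounded (d := d)
  obtain ⟨c, hc0, hc⟩ := eta_lower (d := d)
  refine ⟨4 ^ d * M / c * slope0 d * 4, by have := slope0_nonneg (d := d); positivity, ?_⟩
  intro u T hu h0 x0 hx0 y
  rcases eq_or_ne y x0 with rfl | hne
  · simp [hx0]
  set r := 4 * dist y x0 with hr_def
  have hr : 0 < r := by rw [hr_def]; exact mul_pos (by norm_num) (dist_pos.2 hne)
  have hi : IntegrableOn u (closedBall x0 (r / 2)) := T.loc.integrableOn_isCompact (isCompact_closedBall _ _)
  -- the average at the zero point sees the whole half ball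
  have h1 : c / r ^ d * ∫ w in closedBall x0 (r / 2), u w ≤ avg u x0 r := by
    rw [← integral_const_mul, ← integral_indicator measurableSet_closedBall]
    refine integral_mono ((integrable_indicator_iff measurableSet_closedBall).2 (hi.const_mul _))
      (integrable_ker_mul T.loc hr x0) fun w => ?_
    by_cases hw : w ∈ closedBall x0 (r / 2)
    · rw [indicator_of_mem hw]
      refine mul_le_mul_of_nonneg_right (div_le_div_of_nonneg_right (hc _ ?_) (pow_nonneg hr.le d)) (h0 w)
      rw [norm_rescale hr, div_le_iff₀ hr]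
      linarith [mem_closedBall.1 hw]
    · rw [indicator_of_notMem hw]
      exact mul_nonneg (ker_nonneg hr _ _) (h0 w)
  have h2 : avg u y (r / 4) ≤ M / (r / 4) ^ d * ∫ w in closedBall x0 (r / 2), u w := by
    rw [← integral_const_mul, ← integral_indicator measurableSet_closedBall]
    refine integral_mono (integrable_ker_mul T.loc (by linarith) y)
      ((integrable_indicator_iff measurableSet_closedBall).2 (hi.const_mul _)) fun w => ?_
    by_cases hw : w ∈ closedBall x0 (r / 2)
    · rw [indicator_of_mem hw]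
      exact mul_le_mul_of_nonneg_right (ker_le hM (by linarith) _ _) (h0 w)
    · rw [indicator_of_notMem hw, ker_eq_zero (by linarith) ?_, zero_mul]
      simp only [mem_closedBall, not_le] at hw
      linarith [dist_triangle w y x0, hr_def]
  have h3 : avg u x0 r ≤ slope0 d * r := by simpa [hx0] using T.avg_le hu x0 hr
  have h4 : ∫ w in closedBall x0 (r / 2), u w ≤ r ^ d / c * (slope0 d * r) := by
    have := (mul_le_mul_of_nonneg_left (h1.trans h3) (show 0 ≤ r ^ d / c by positivity))
    refine le_trans (le_of_eq ?_) this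
    field_simp
  refine ((T.le_avg hu y (by linarith : (0:ℝ) < r / 4)).trans
    (h2.trans (mul_le_mul_of_nonneg_left h4 (by positivity)))).trans_eq ?_
  have h44 : (4 : ℝ) ^ d ≠ 0 := pow_ne_zero d (by norm_num)
  have hdd : (dist y x0) ^ d ≠ 0 := pow_ne_zero d (dist_ne_zero.2 hne)
  rw [hr_def, div_pow, mul_pow]
  field_simp

/-- Away from the zero set the averages are constant. -/
theorem Tame.avg_eq [NeZero d] (T : Tame u) (hc : Continuous u) {r : ℝ} (hr : 0 < r)
    (hpos : ∀ y ∈ closedBall x r, u y ≠ 0) : avg u x r = u x := by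
  refine le_antisymm ?_ (T.le_avg hc x hr)
  have key : ∀ s ∈ Ioo (0 : ℝ) r, avg u x r ≤ avg u x s := fun s hs => by
    have := T.avg_sub_le x (θ := 0) hs.1 hs.2.le fun t ht => by
      have : {y | u y = 0} ∩ closedBall x t = ∅ :=
        eq_empty_of_forall_notMem fun y hy => hpos y (closedBall_subset_closedBall ht.2 hy.2) hy.1
      simp [this]
    simpa using this
  have ht := T.tendsto_avg x
  rw [T.rep_eq hc x] at ht
  exact ge_of_tendsto ht (eventually_of_mem (Ioo_mem_nhdsGT hr) key)

theorem ker_lip (d : ℕ) : ∃ K : ℝ, 0 ≤ K ∧ ∀ {r : ℝ}, 0 < r → ∀ x x' y : EuclideanSpace ℝ (Fin d),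
    |ker r x y - ker r x' y| ≤ K * dist x x' / (r * r ^ d) := by
  obtain ⟨K, hK⟩ := ContDiff.lipschitzWith_of_hasCompactSupport
    (HasCompactSupport.intro (isCompact_closedBall 0 1) fun z hz =>
      eta_of_one_lt (d := d) (by simpa [mem_closedBall_zero_iff] using hz))
    (contDiff_eta (d := d)) (by simp)
  refine ⟨K, K.2, fun {r} hr x x' y => ?_⟩
  rw [ker, ker, ← sub_div, abs_div, abs_of_pos (pow_pos hr d)]
  have := hK.dist_le_mul (r⁻¹ • (y - x)) (r⁻¹ • (y - x'))
  rw [Real.dist_eq, dist_smul₀, dist_sub_left, norm_inv, Real.norm_of_nonneg hr.le] at this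
  refine (div_le_div_of_nonneg_right this (pow_pos hr d).le).trans_eq ?_
  rw [dist_comm x x']
  field_simp

/-- The universal Lipschitz bound. -/
theorem lipschitz (d : ℕ) [NeZero d] : ∃ K : NNReal, ∀ u : EuclideanSpace ℝ (Fin d) → ℝ, Tame u →
    Continuous u → (∀ y, 0 ≤ u y) → (∃ z, u z = 0) → LipschitzWith K u := by
  obtain ⟨L, hL0, hL⟩ := growth d
  obtain ⟨K, hK0, hK⟩ := ker_lip d
  set V := volume.real (closedBall (0 : EuclideanSpace ℝ (Fin d)) 1)
  set C := max (5 * L) (6 * (3 ^ d * K * V * L))
  refine ⟨⟨C, le_max_of_le_left (by positivity)⟩, fun u T hu h0 hz => LipschitzWith.of_dist_le_mul fun x y => ?_⟩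
  show dist (u x) (u y) ≤ C * dist x y
  have hZc : IsClosed {w | u w = 0} := isClosed_eq hu continuous_const
  obtain ⟨z, hz0, hzd⟩ := hZc.exists_infDist_eq_dist hz x
  set D := Metric.infDist x {w | u w = 0} with hD
  have hux : u x ≤ L * D := by rw [hzd]; exact hL u T hu h0 z hz0 x
  have huy : u y ≤ L * (D + dist x y) := by
    refine (hL u T hu h0 z hz0 y).trans (mul_le_mul_of_nonneg_left ?_ hL0)
    rw [hzd]; linarith [dist_triangle y x z, dist_comm y x]
  rcases le_or_gt D (4 * dist x y) with hcase | hcase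
  · have h5 : L * (D + dist x y) ≤ 5 * L * dist x y := by nlinarith
    have h6 : L * D ≤ 5 * L * dist x y := by nlinarith [dist_nonneg (x := x) (y := y)]
    rw [Real.dist_eq, abs_sub_le_iff]
    have := mul_le_mul_of_nonneg_right (le_max_left (5 * L) (6 * (3 ^ d * K * V * L))) (dist_nonneg (x := x) (y := y))
    constructor <;> nlinarith [h0 x, h0 y]
  have hDp : 0 < D := lt_of_le_of_lt (by positivity) hcase
  have hr : 0 < D / 2 := half_pos hDp
  have hne : ∀ w, dist w x < D → u w ≠ 0 := fun w hw h =>
    absurd (Metric.infDist_le_dist_of_mem (x := x) (s := {w | u w = 0}) h) (by rw [dist_comm x w]; linarith)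
  have ex : avg u x (D / 2) = u x := T.avg_eq hu hr fun w hw => hne w (by linarith [mem_closedBall.1 hw])
  have ey : avg u y (D / 2) = u y := T.avg_eq hu hr fun w hw =>
    hne w (by linarith [mem_closedBall.1 hw, dist_triangle w y x, dist_comm x y])
  have hb : ∀ w ∈ closedBall x (3 / 2 * D), u w ≤ 3 * L * D := fun w hw => by
    refine (hL u T hu h0 z hz0 w).trans ?_
    nlinarith [mem_closedBall.1 hw, dist_triangle w x z, hzd]
  have hint : ∫ w in closedBall x (3 / 2 * D), u w ≤ 3 * L * D * ((3 / 2 * D) ^ d * V) := by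
    refine (setIntegral_mono_on (T.loc.integrableOn_isCompact (isCompact_closedBall _ _))
      (continuous_const.continuousOn.integrableOn_compact (isCompact_closedBall _ _))
      measurableSet_closedBall hb).trans_eq ?_
    rw [setIntegral_const, smul_eq_mul, volReal_closedBall (by linarith)]
    ring
  rw [← ex, ← ey, Real.dist_eq, avg, avg, ← integral_sub (integrable_ker_mul T.loc hr x) (integrable_ker_mul T.loc hr y)]
  refine (((Real.norm_eq_abs _).symm.le).trans (norm_integral_le_of_norm_le ((integrable_indicator_iff measurableSet_closedBall).2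
    ((T.loc.integrableOn_isCompact (isCompact_closedBall x (3 / 2 * D))).const_mul
      (K * dist x y / (D / 2 * (D / 2) ^ d))))
    (Eventually.of_forall fun w => ?_))).trans ?_
  · by_cases hw : w ∈ closedBall x (3 / 2 * D)
    · rw [indicator_of_mem hw, ← sub_mul, norm_mul, Real.norm_of_nonneg (h0 w)]
      exact mul_le_mul_of_nonneg_right (hK hr x y w) (h0 w)
    · simp only [mem_closedBall, not_le] at hw
      rw [indicator_of_notMem (by simpa using hw), ker_eq_zero hr (by linarith),
        ker_eq_zero hr (by linarith [dist_triangle w y x, dist_comm x y])]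
      simp
  rw [integral_indicator measurableSet_closedBall, integral_const_mul]
  refine (mul_le_mul_of_nonneg_left hint (by positivity)).trans ?_
  refine le_trans (le_of_eq ?_) (mul_le_mul_of_nonneg_right (le_max_right (5 * L) (6 * (3 ^ d * K * V * L)))
    (dist_nonneg (x := x) (y := y)))
  rw [mul_pow, div_pow, div_pow]
  field_simp
  ring

/-- At a zero point the zero set has positive volume in every ball. -/
theorem Tame.zero_pos [NeZero d] (T : Tame u) (hc : Continuous u) (h0 : ∀ y, 0 ≤ u y) {r : ℝ}
    (hr : 0 < r) (hx : u x = 0) : volume ({y | u y = 0} ∩ ball x r) ≠ 0 := by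
  intro hvol
  set s := r / 2 with hs_def
  have hs : 0 < s := half_pos hr
  have havg : avg u x s ≤ u x := by
    have key : ∀ t ∈ Ioo (0 : ℝ) s, avg u x s ≤ avg u x t := fun t ht => by
      have := T.avg_sub_le x (θ := 0) ht.1 ht.2.le fun q hq => by
        have : volume ({y | u y = 0} ∩ closedBall x q) = 0 :=
          measure_mono_null (inter_subset_inter_right _ (closedBall_subset_ball (by linarith [hq.2]))) hvol
        simp [Measure.real, this]
      simpa using this
    have ht := T.tendsto_avg x
    rw [T.rep_eq hc x] at ht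
    exact ge_of_tendsto ht (eventually_of_mem (Ioo_mem_nhdsGT hs) key)
  obtain ⟨c, hc0, hlow⟩ := eta_lower (d := d)
  -- the average vanishes, so `u` vanishes on a half ball
  have hzero : ∀ w ∈ ball x (s / 2), u w = 0 := by
    by_contra hne
    push Not at hne
    obtain ⟨w, hw, hwu⟩ := hne
    have hcont : Continuous fun y => ker s x y * u y :=
      ((contDiff_eta.continuous.comp ((continuous_id.sub continuous_const).const_smul s⁻¹)).div_const _).mul hc
    have hpos : 0 < avg u x s := by
      refine hcont.integral_pos_of_hasCompactSupport_nonneg_nonzero ?_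
        (fun y => mul_nonneg (ker_nonneg hs _ _) (h0 y)) (x := w) ?_
      · exact HasCompactSupport.intro (isCompact_closedBall x s) fun y hy => by
          simp [ker_eq_zero hs (show s < dist y x by simpa using hy)]
      · refine mul_ne_zero (div_ne_zero (ne_of_gt (hc0.trans_le (hlow _ ?_))) (pow_pos hs d).ne') hwu
        rw [norm_rescale hs, div_le_iff₀ hs]
        linarith [mem_ball.1 hw]
    linarith
  have hsub : ball x (s / 2) ⊆ {y | u y = 0} ∩ ball x r := fun w hw =>
    ⟨hzero w hw, mem_ball.2 (by linarith [mem_ball.1 hw])⟩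
  exact (isOpen_ball.measure_pos volume (nonempty_ball.2 (half_pos hs))).ne'
    (measure_mono_null hsub hvol)

end Vale.Agent.P098.Reg.AC
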