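import Vale.Agent.P098.Reg.AC.Rep

/-! Smoothness and harmonicity away from the zero set. -/

noncomputable section

namespace Vale.Agent.P098.Reg.AC

open MeasureTheory Set Filter Topology Metric
open scoped ContDiff Convolution

variable {d : ℕ} {u : EuclideanSpace ℝ (Fin d) → ℝ} {x : EuclideanSpace ℝ (Fin d)}

/-- Integration by parts for a smooth pair, one of them compactly supported. -/
theorem integral_mul_pd {f g : EuclideanSpace ℝ (Fin d) → ℝ} (hf : ContDiff ℝ 1 f) (hg : ContDiff ℝ 1 g)
    (hs : HasCompactSupport g) (i : Fin d) :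
    ∫ y, f y * pd i g y = -∫ y, pd i f y * g y := by
  have cf : Continuous (pd i f) := (contDiff_pd hf (m := 0) (by simp)).continuous
  have cg : Continuous (pd i g) := (contDiff_pd hg (m := 0) (by simp)).continuous
  exact integral_mul_fderiv_eq_neg_fderiv_mul_of_integrable
    ((cf.mul hg.continuous).integrable_of_hasCompactSupport hs.mul_left)
    ((hf.continuous.mul cg).integrable_of_hasCompactSupport (hasCompactSupport_pd hs).mul_left)
    ((hf.continuous.mul hg.continuous).integrable_of_hasCompactSupport hs.mul_left)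
    (fun y _ => hf.differentiable (by simp) y) (fun y _ => hg.differentiable (by simp) y)

theorem contDiff_avg (hu : LocallyIntegrable u) {r : ℝ} (hr : 0 < r) :
    ContDiff ℝ ∞ fun y => avg u y r := by
  set k : EuclideanSpace ℝ (Fin d) → ℝ := fun t => eta (r⁻¹ • t) / r ^ d with hk
  have hks : HasCompactSupport k := HasCompactSupport.intro (isCompact_closedBall 0 r) fun t ht => by
    have : r < ‖t‖ := by simpa using ht
    simp only [hk]
    rw [eta_of_one_lt, zero_div]
    rw [norm_smul, norm_inv, Real.norm_of_nonneg hr.le, inv_mul_eq_div, one_lt_div hr]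
    exact this
  have hkd : ContDiff ℝ ∞ k := (contDiff_eta.comp (contDiff_id.const_smul r⁻¹)).div_const _
  have he : (fun y => avg u y r) = k ⋆[ContinuousLinearMap.mul ℝ ℝ, volume] u := by
    funext y
    rw [convolution_eq_swap]
    refine integral_congr_ae (Eventually.of_forall fun w => ?_)
    simp only [hk, ker, ContinuousLinearMap.mul_apply']
    rw [← neg_sub w y, smul_neg, eta_neg]
  rw [he]
  exact hks.contDiff_convolution_left _ hkd hu

variable (hc : Continuous u)
include hc

theorem Tame.eventually_eq_avg [NeZero d] (T : Tame u) (hx : u x ≠ 0) :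
    ∃ r > 0, (∀ y ∈ ball x r, u y = avg u y r) := by
  obtain ⟨ε, hε, hb⟩ := Metric.isOpen_iff.1 ((isOpen_ne.preimage hc) : IsOpen {y | u y ≠ 0}) x hx
  refine ⟨ε / 2, half_pos hε, fun y hy => (T.avg_eq hc (half_pos hε) fun w hw => hb ?_).symm⟩
  rw [mem_ball] at hy ⊢
  linarith [mem_closedBall.1 hw, dist_triangle w y x]

theorem Tame.contDiffOn [NeZero d] (T : Tame u) : ContDiffOn ℝ ∞ u {y | u y ≠ 0} := fun x hx => by
  obtain ⟨r, hr, he⟩ := T.eventually_eq_avg hc hx
  exact ((contDiff_avg T.loc hr).contDiffAt.congr_of_eventuallyEq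
    (eventually_of_mem (ball_mem_nhds x hr) he)).contDiffWithinAt

theorem Tame.harmonic [NeZero d] (T : Tame u) (hx : u x ≠ 0) : ∑ i, pd i (pd i u) x = 0 := by
  obtain ⟨r, hr, he⟩ := T.eventually_eq_avg hc hx
  set U := fun y => avg u y r
  have hU : ContDiff ℝ ∞ U := contDiff_avg T.loc hr
  have hev : u =ᶠ[𝓝 x] U := eventually_of_mem (ball_mem_nhds x hr) he
  have hl : lap u x = lap U x := Finset.sum_congr rfl fun i _ =>
    pd_congr (hev.eventuallyEq_nhds.mono fun y hy => pd_congr hy)
  show lap u x = 0
  rw [hl]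
  have hlc : Continuous (lap U) := continuous_finsetSum _ fun i _ =>
    (contDiff_pd (contDiff_pd (n := ∞) (m := ∞) hU le_rfl) (m := ∞) le_rfl).continuous
  -- small balls carry no mass
  have hzero : ∀ᶠ s in 𝓝[>] (0 : ℝ), ∫ y, lap U y * psiR s x y = 0 := by
    obtain ⟨ε, hε, hb⟩ := Metric.isOpen_iff.1 ((isOpen_ne.preimage hc) : IsOpen {y | u y ≠ 0}) x hx
    filter_upwards [Ioo_mem_nhdsGT (lt_min hε hr)] with s hs
    have hse : s < ε := hs.2.trans_le (min_le_left _ _)
    have hsr : s < r := hs.2.trans_le (min_le_right _ _)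
    have hcs := hasCompactSupport_psiR hs.1 x
    have hd := contDiff_psiR s x
    have h1 : mu u (psiR s x) = 0 := by
      refine le_antisymm ((T.mu_le _ hd hcs fun y => psi_nonneg _).trans_eq ?_)
        (T.mu_nonneg _ hd hcs fun y => psi_nonneg _)
      have : {y | u y = 0} ∩ tsupport (psiR s x) = ∅ := eq_empty_of_forall_notMem fun y hy =>
        hb (mem_ball.2 ((mem_closedBall.1 (tsupport_psiR hs.1 x hy.2)).trans_lt hse)) hy.1
      simp [this]
    have hi : ∀ i, Integrable fun y => U y * pd i (pd i (psiR s x)) y := fun i =>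
      (hU.continuous.mul (contDiff_pd (contDiff_pd (n := ∞) (m := ∞) hd le_rfl) (m := ∞) le_rfl).continuous
        ).integrable_of_hasCompactSupport (hasCompactSupport_pd (hasCompactSupport_pd hcs)).mul_left
    have hi' : ∀ i, Integrable fun y => pd i (pd i U) y * psiR s x y := fun i =>
      ((contDiff_pd (contDiff_pd (n := ∞) (m := ∞) hU le_rfl) (m := ∞) le_rfl).continuous.mul
        hd.continuous).integrable_of_hasCompactSupport hcs.mul_left
    have h2 : mu u (psiR s x) = ∫ y, U y * lap (psiR s x) y := by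
      refine integral_congr_ae (Eventually.of_forall fun y => ?_)
      by_cases hy : y ∈ ball x r
      · simp only; rw [he y hy]
      · have hl : lap (psiR s x) y = 0 := by
          have hev : psiR s x =ᶠ[𝓝 y] fun _ => (0 : ℝ) :=
            notMem_tsupport_iff_eventuallyEq.1 fun h => hy
              (mem_ball.2 ((mem_closedBall.1 (tsupport_psiR hs.1 x h)).trans_lt hsr))
          refine Finset.sum_eq_zero fun i _ => ?_
          exact (pd_congr (hev.eventuallyEq_nhds.mono fun w hw => (pd_congr hw).trans (pd_const 0))).trans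
            (pd_const 0)
        simp [hl]
    rw [h2] at h1
    simp only [lap, Finset.mul_sum, Finset.sum_mul] at h1 ⊢
    rw [integral_finsetSum _ fun i _ => hi i] at h1
    rw [integral_finsetSum _ fun i _ => hi' i, ← h1]
    refine Finset.sum_congr rfl fun i _ => ?_
    have hd1 : ContDiff ℝ 1 (pd i (psiR s x)) := contDiff_pd hd (WithTop.coe_le_coe.2 le_top)
    have hu1 : ContDiff ℝ 1 (pd i U) := contDiff_pd hU (WithTop.coe_le_coe.2 le_top)
    rw [integral_mul_pd (hU.of_le (by simp)) hd1 (hasCompactSupport_pd hcs) i,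
      integral_mul_pd hu1 (hd.of_le (by simp)) hcs i, neg_neg]
  by_contra hne
  have hpos : 0 < lap U x ^ 2 := by positivity
  obtain ⟨δ, hδ, hδ'⟩ := Metric.eventually_nhds_iff.1
    (((hlc.tendsto x).mul_const (lap U x)).eventually (lt_mem_nhds (by nlinarith : (0:ℝ) < lap U x * lap U x)))
  obtain ⟨s, hs0, hs⟩ := (hzero.and (Ioo_mem_nhdsGT hδ)).exists
  have hint : 0 < ∫ y, lap U y * lap U x * psiR s x y := by
    refine ((hlc.mul continuous_const).mul (contDiff_psiR s x).continuous).integral_pos_of_hasCompactSupport_nonneg_nonzero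
      (hasCompactSupport_psiR hs.1 x).mul_left (fun y => ?_) (x := x) ?_
    · rcases lt_or_ge (dist y x) s with h | h
      · exact mul_nonneg (hδ' (h.trans hs.2)).le (psi_nonneg _)
      · simp [psiR_eq_zero hs.1 h]
    · refine mul_ne_zero (mul_ne_zero hne hne) (div_ne_zero ?_ (mass_pos (d := d)).ne')
      simp [prof, expNegInvGlue.zero_iff_nonpos]
  have : ∫ y, lap U y * lap U x * psiR s x y = lap U x * ∫ y, lap U y * psiR s x y := by
    rw [← integral_const_mul]
    exact integral_congr_ae (Eventually.of_forall fun y => by ring)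
  rw [this, hs0, mul_zero] at hint
  exact lt_irrefl _ hint

end Vale.Agent.P098.Reg.AC
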