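import Vale.Agent.P098.Reg.AC.Vary

/-! First-order consequences of minimality, shared by the Lipschitz and the Sobolev setting. -/

noncomputable section

namespace Vale.Agent.P098.Reg.AC

open MeasureTheory Set Filter Topology Metric
open scoped ContDiff RealInnerProductSpace ENNReal

variable {d : ℕ}

theorem integrable_pos {u : Pt d → ℝ} {c : Pt d} {R : ℝ} (hu : AEStronglyMeasurable u) :
    IntegrableOn ({y | 0 < u y}.indicator fun _ => (1 : ℝ)) (ball c R) := by
  refine (integrableOn_const (C := (1 : ℝ)) measure_ball_lt_top.ne).mono'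
    ((aestronglyMeasurable_const.indicator₀ (nullMeasurableSet_lt aemeasurable_const hu.aemeasurable)).restrict)
    (Eventually.of_forall fun x => ?_)
  by_cases h : x ∈ {y | 0 < u y} <;> simp [h]

/-- Energy comparison with a competitor whose gradient is `G + ε W`. -/
theorem energy_step {u v : Pt d → ℝ} {G W : Pt d → Pt d} {c : Pt d} {R ε : ℝ} {T : Set (Pt d)}
    (hu : AEStronglyMeasurable u) (hv : AEStronglyMeasurable v)
    (hG : MemLp G 2 (volume.restrict (ball c R))) (hW : MemLp W 2 (volume.restrict (ball c R)))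
    (hW0 : ∀ x ∉ ball c R, W x = 0) (hTm : NullMeasurableSet T volume) (hT : T ⊆ ball c R)
    (hind : ∀ᵐ x, x ∈ ball c R → {y | 0 < v y}.indicator (fun _ => (1 : ℝ)) x
        ≤ {y | 0 < u y}.indicator (fun _ => (1 : ℝ)) x + T.indicator (fun _ => (1 : ℝ)) x)
    (hmin : bernoulli u G c R ≤ bernoulli v (fun x => G x + ε • W x) c R) :
    0 ≤ 2 * ε * (∫ x, ⟪G x, W x⟫) + ε ^ 2 * (∫ x, ‖W x‖ ^ 2) + volume.real T := by
  have hTi : IntegrableOn (T.indicator fun _ => (1 : ℝ)) (ball c R) := by
    refine (integrableOn_const (C := (1 : ℝ)) measure_ball_lt_top.ne).mono'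
      ((aestronglyMeasurable_const.indicator₀ hTm).restrict) (Eventually.of_forall fun x => ?_)
    by_cases h : x ∈ T <;> simp [h]
  have hGG : IntegrableOn (fun x => ‖G x‖ ^ 2) (ball c R) := hG.norm.integrable_sq
  have hWW : IntegrableOn (fun x => ‖W x‖ ^ 2) (ball c R) := hW.norm.integrable_sq
  have hGW : IntegrableOn (fun x => ⟪G x, W x⟫) (ball c R) := by
    refine ((hGG.add hWW).mono' (hG.aestronglyMeasurable.inner hW.aestronglyMeasurable)
      (Eventually.of_forall fun x => ?_))
    rw [Real.norm_eq_abs, Pi.add_apply]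
    nlinarith [abs_real_inner_le_norm (G x) (W x), sq_nonneg (‖G x‖ - ‖W x‖)]
  have e1 : ∫ x, ⟪G x, W x⟫ = ∫ x in ball c R, ⟪G x, W x⟫ :=
    (setIntegral_eq_integral_of_forall_compl_eq_zero fun x hx => by simp [hW0 x hx]).symm
  have e2 : ∫ x, ‖W x‖ ^ 2 = ∫ x in ball c R, ‖W x‖ ^ 2 :=
    (setIntegral_eq_integral_of_forall_compl_eq_zero fun x hx => by simp [hW0 x hx]).symm
  have e3 : volume.real T = ∫ x in ball c R, T.indicator (fun _ => (1 : ℝ)) x := by
    rw [setIntegral_eq_integral_of_forall_compl_eq_zero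
      fun x hx => indicator_of_notMem (fun h => hx (hT h)) _]
    rw [integral_indicator₀ hTm, setIntegral_const, smul_eq_mul, mul_one]
  have hle : bernoulli v (fun x => G x + ε • W x) c R ≤
      ∫ x in ball c R, ((‖G x‖ ^ 2 + {y | 0 < u y}.indicator (fun _ => (1 : ℝ)) x)
        + (2 * ε * ⟪G x, W x⟫ + ε ^ 2 * ‖W x‖ ^ 2 + T.indicator (fun _ => (1 : ℝ)) x)) := by
    refine setIntegral_mono_ae_restrict ?_ ?_ ?_
    · exact ((hG.add (hW.const_smul ε)).norm.integrable_sq.congr (Eventually.of_forall fun x => rfl)).add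
        (integrable_pos hv)
    · exact (hGG.add (integrable_pos hu)).add (((hGW.const_mul _).add (hWW.const_mul _)).add hTi)
    · refine (ae_restrict_iff' measurableSet_ball).2 (hind.mono fun x hx hxB => ?_)
      have := hx hxB
      show ‖G x + ε • W x‖ ^ 2 + _ ≤ _
      rw [norm_add_sq_real, inner_smul_right, norm_smul, mul_pow, Real.norm_eq_abs, sq_abs]
      linarith
  have h1 := hmin.trans hle
  have hP : IntegrableOn (fun x => ‖G x‖ ^ 2 + {y | 0 < u y}.indicator (fun _ => (1 : ℝ)) x) (ball c R) :=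
    hGG.add (integrable_pos hu)
  have hQ1 : IntegrableOn (fun x => 2 * ε * ⟪G x, W x⟫) (ball c R) := hGW.const_mul _
  have hQ2 : IntegrableOn (fun x => ε ^ 2 * ‖W x‖ ^ 2) (ball c R) := hWW.const_mul _
  have hQ : IntegrableOn (fun x => 2 * ε * ⟪G x, W x⟫ + ε ^ 2 * ‖W x‖ ^ 2) (ball c R) := hQ1.add hQ2
  have hQT : IntegrableOn (fun x => 2 * ε * ⟪G x, W x⟫ + ε ^ 2 * ‖W x‖ ^ 2
      + T.indicator (fun _ => (1 : ℝ)) x) (ball c R) := hQ.add hTi
  rw [integral_add hP hQT, integral_add hQ hTi, integral_add hQ1 hQ2,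
    integral_const_mul, integral_const_mul, ← e1, ← e2, ← e3] at h1
  change bernoulli u G c R ≤ bernoulli u G c R + _ at h1
  linarith

/-- The perturbation used downwards. -/
def downW (u : Pt d → ℝ) (G : Pt d → Pt d) (φ : Pt d → ℝ) (δ : ℝ) (x : Pt d) : Pt d :=
  -(cut δ (u x) • grad φ x + (φ x * deriv (cut δ) (u x)) • G x)

theorem aesm_downW {u : Pt d → ℝ} {G : Pt d → Pt d} {φ : Pt d → ℝ} (δ : ℝ) (hu : AEStronglyMeasurable u)
    (hG : AEStronglyMeasurable G) (hφ : ContDiff ℝ ∞ φ) : AEStronglyMeasurable (downW u G φ δ) :=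
  (((contDiff_cut (δ := δ)).continuous.comp_aestronglyMeasurable hu).smul
    (continuous_grad hφ).aestronglyMeasurable).add
    ((hφ.continuous.aestronglyMeasurable.mul (((contDiff_cut (δ := δ)).continuous_deriv (by simp)).comp_aestronglyMeasurable hu)).smul hG) |>.neg

theorem downW_eq_zero {u : Pt d → ℝ} {G : Pt d → Pt d} {φ : Pt d → ℝ} (δ : ℝ) {x : Pt d}
    (hx : x ∉ tsupport φ) : downW u G φ δ x = 0 := by
  simp [downW, grad_eq_zero hx, image_eq_zero_of_notMem_tsupport hx]

theorem memLp_downW {u : Pt d → ℝ} {G : Pt d → Pt d} {φ : Pt d → ℝ} {δ : ℝ} (hδ : 0 < δ)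
    {c : Pt d} {R : ℝ} (hu : AEStronglyMeasurable u) (hG' : AEStronglyMeasurable G)
    (hG : MemLp G 2 (volume.restrict (ball c R))) (hφ : ContDiff ℝ ∞ φ) (hs : HasCompactSupport φ) :
    MemLp (downW u G φ δ) 2 (volume.restrict (ball c R)) := by
  obtain ⟨K, hK0, hK⟩ := deriv_cut_bound δ hδ
  obtain ⟨N, hN⟩ := hφ.continuous.bounded_above_of_compact_support hs
  obtain ⟨M, hM⟩ := (continuous_grad hφ).bounded_above_of_compact_support (hasCompactSupport_grad hs)
  haveI : IsFiniteMeasure (volume.restrict (ball c R)) := isFiniteMeasure_restrict.2 measure_ball_lt_top.ne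
  refine MemLp.mono' (g := fun x => M + (N * K) * ‖G x‖) ((memLp_const M).add (hG.norm.const_mul _))
    (aesm_downW δ hu hG' hφ).restrict (Eventually.of_forall fun x => ?_)
  rw [downW, norm_neg]
  refine (norm_add_le _ _).trans (add_le_add ?_ ?_)
  · rw [norm_smul, Real.norm_of_nonneg (cut_nonneg _ _)]
    exact (mul_le_of_le_one_left (norm_nonneg _) (cut_le_one _ _)).trans (hM x)
  · rw [norm_smul, norm_mul]
    exact mul_le_mul_of_nonneg_right (mul_le_mul (hN x) (hK _) (abs_nonneg _) ((norm_nonneg _).trans (hN x)))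
      (norm_nonneg _)

/-- Both variations from the two families of competitors. -/
theorem vary_of_min {u : Pt d → ℝ} {G : Pt d → Pt d} (h0 : ∀ᵐ x, 0 ≤ u x)
    (hu : AEStronglyMeasurable u) (hG' : AEStronglyMeasurable G) (hw : ∀ i, WeakPd i u (fun x => G x i))
    (hG : ∀ R, MemLp G 2 (volume.restrict (ball 0 R)))
    (hA : ∀ φ : Pt d → ℝ, ContDiff ℝ ∞ φ → HasCompactSupport φ → (∀ x, 0 ≤ φ x) → ∀ ε : ℝ, 0 < ε →
      ∀ R, tsupport φ ⊆ ball 0 R →
        bernoulli u G 0 R ≤ bernoulli (fun x => u x + ε * φ x) (fun x => G x + ε • grad φ x) 0 R)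
    (hB : ∀ φ : Pt d → ℝ, ContDiff ℝ ∞ φ → HasCompactSupport φ → (∀ x, 0 ≤ φ x) → ∀ δ : ℝ, 0 < δ →
      ∀ ε : ℝ, 0 < ε → (∀ x t, 0 ≤ t → ε * (φ x * cut δ t) ≤ t) → ∀ R, tsupport φ ⊆ ball 0 R →
        bernoulli u G 0 R ≤
          bernoulli (fun x => u x - ε * (φ x * cut δ (u x))) (fun x => G x + ε • downW u G φ δ x) 0 R) :
    Vary u G where
  nonneg := h0
  wpd := hw
  plus φ hφ hs hφ0 ε hε := by
    obtain ⟨R, hR⟩ := (IsCompact.isBounded hs).subset_ball 0
    haveI : IsFiniteMeasure (volume.restrict (ball (0 : Pt d) R)) :=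
      isFiniteMeasure_restrict.2 measure_ball_lt_top.ne
    refine energy_step (v := fun x => u x + ε * φ x) hu (hu.add (hφ.continuous.aestronglyMeasurable.const_mul ε)) (hG R)
      ((continuous_grad hφ).memLp_of_hasCompactSupport (hasCompactSupport_grad hs))
      (fun x hx => grad_eq_zero fun h => hx (hR h))
      ((nullMeasurableSet_eq_fun hu.aemeasurable aemeasurable_const).inter
        (isClosed_tsupport φ).measurableSet.nullMeasurableSet)
      (inter_subset_right.trans hR) (h0.mono fun x hx _ => ?_) (hA φ hφ hs hφ0 ε hε R hR)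
    by_cases hv : 0 < u x + ε * φ x
    · rw [indicator_of_mem (show x ∈ {y | 0 < u y + ε * φ y} from hv)]
      rcases hx.lt_or_eq with h | h
      · rw [indicator_of_mem (show x ∈ {y | 0 < u y} from h)]
        have := indicator_nonneg (s := {x | u x = 0} ∩ tsupport φ) (fun _ _ => zero_le_one (α := ℝ)) x
        linarith
      · have hT : x ∈ {x | u x = 0} ∩ tsupport φ :=
          ⟨h.symm, by by_contra hc; simp [← h, image_eq_zero_of_notMem_tsupport hc] at hv⟩
        rw [indicator_of_mem hT]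
        have := indicator_nonneg (s := {y | 0 < u y}) (fun _ _ => zero_le_one (α := ℝ)) x
        linarith
    · rw [indicator_of_notMem (show x ∉ {y | 0 < u y + ε * φ y} from hv)]
      exact add_nonneg (indicator_nonneg (fun _ _ => zero_le_one) x) (indicator_nonneg (fun _ _ => zero_le_one) x)
  minus φ hφ hs hφ0 δ hδ := by
    obtain ⟨R, hR⟩ := (IsCompact.isBounded hs).subset_ball 0
    obtain ⟨K, hK0, hK⟩ := deriv_cut_bound δ hδ
    obtain ⟨N, hN⟩ := hφ.continuous.bounded_above_of_compact_support hs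
    have hN0 : 0 ≤ N := (norm_nonneg _).trans (hN 0)
    set W := downW u G φ δ
    have hWm : MemLp W 2 (volume.restrict (ball 0 R)) := memLp_downW hδ hu hG' (hG R) hφ hs
    have key : ∀ ε : ℝ, 0 < ε → ε ≤ 1 / (N * K + 1) →
        0 ≤ 2 * (∫ x, ⟪G x, W x⟫) + ε * (∫ x, ‖W x‖ ^ 2) := by
      intro ε hε hεs
      have hok : ∀ x t, 0 ≤ t → ε * (φ x * cut δ t) ≤ t := by
        intro x t ht
        have h1 : φ x * cut δ t ≤ N * (K * t) :=
          mul_le_mul ((le_abs_self _).trans (hN x)) (cut_le_mul hK ht) (cut_nonneg _ _) hN0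
        have h2 : ε * (N * K + 1) ≤ 1 := (le_div_iff₀ (by positivity)).1 hεs
        nlinarith [mul_le_mul_of_nonneg_left h1 hε.le]
      have h := energy_step (T := ∅) (v := fun x => u x - ε * (φ x * cut δ (u x))) hu (hu.sub ((hφ.continuous.aestronglyMeasurable.mul
        ((contDiff_cut (δ := δ)).continuous.comp_aestronglyMeasurable hu)).const_mul ε)) (hG R) hWm
        (fun x hx => downW_eq_zero δ fun h => hx (hR h)) nullMeasurableSet_empty (empty_subset _)
        (h0.mono fun x hx _ => ?_) (hB φ hφ hs hφ0 δ hδ ε hε hok R hR)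
      · rw [measureReal_empty, add_zero] at h
        refine nonneg_of_mul_nonneg_right (a := ε) ?_ hε
        linarith
      · simp only [indicator_empty, add_zero]
        refine indicator_le_indicator_of_subset (fun y hy => ?_) (fun _ => zero_le_one) x
        show 0 < u y
        by_contra hc
        have hy' : 0 < u y - ε * (φ y * cut δ (u y)) := hy
        have : 0 ≤ ε * (φ y * cut δ (u y)) := mul_nonneg hε.le (mul_nonneg (hφ0 y) (cut_nonneg _ _))
        linarith
    have hGW : 0 ≤ ∫ x, ⟪G x, W x⟫ := by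
      have ht : Tendsto (fun ε : ℝ => 2 * (∫ x, ⟪G x, W x⟫) + ε * (∫ x, ‖W x‖ ^ 2)) (𝓝[>] 0)
          (𝓝 (2 * (∫ x, ⟪G x, W x⟫))) := by
        have : Continuous fun ε : ℝ => 2 * (∫ x, ⟪G x, W x⟫) + ε * (∫ x, ‖W x‖ ^ 2) := by fun_prop
        simpa using (this.tendsto 0).mono_left nhdsWithin_le_nhds
      have := ge_of_tendsto ht (eventually_of_mem (Ioc_mem_nhdsGT (show (0:ℝ) < 1 / (N * K + 1) by positivity))
        fun ε hε => key ε hε.1 hε.2)
      linarith
    haveI : IsFiniteMeasure (volume.restrict (ball (0 : Pt d) R)) :=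
      isFiniteMeasure_restrict.2 measure_ball_lt_top.ne
    have hi1 : IntegrableOn (fun x => cut δ (u x) * ⟪G x, grad φ x⟫) (ball 0 R) := by
      obtain ⟨M, hM⟩ := (continuous_grad hφ).bounded_above_of_compact_support (hasCompactSupport_grad hs)
      refine (((hG R).integrable (by norm_num)).norm.const_mul M).mono'
        (((contDiff_cut (δ := δ)).continuous.comp_aestronglyMeasurable hu).mul
          (hG'.inner (continuous_grad hφ).aestronglyMeasurable)).restrict (Eventually.of_forall fun x => ?_)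
      rw [norm_mul, Real.norm_of_nonneg (cut_nonneg _ _), Real.norm_eq_abs]
      calc cut δ (u x) * |⟪G x, grad φ x⟫| ≤ 1 * (‖G x‖ * M) :=
            mul_le_mul (cut_le_one _ _) ((abs_real_inner_le_norm _ _).trans
              (mul_le_mul_of_nonneg_left (hM x) (norm_nonneg _))) (abs_nonneg _) zero_le_one
        _ = M * ‖G x‖ := by ring
    have hi2 : IntegrableOn (fun x => φ x * deriv (cut δ) (u x) * ‖G x‖ ^ 2) (ball 0 R) := by
      refine ((hG R).norm.integrable_sq.const_mul (N * K)).mono'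
        ((hφ.continuous.aestronglyMeasurable.mul (((contDiff_cut (δ := δ)).continuous_deriv (by simp)).comp_aestronglyMeasurable hu)).mul
          (hG'.norm.pow 2)).restrict (Eventually.of_forall fun x => ?_)
      rw [norm_mul, norm_mul, Real.norm_of_nonneg (sq_nonneg ‖G x‖)]
      exact mul_le_mul_of_nonneg_right (mul_le_mul (hN x) (hK _) (abs_nonneg _) hN0) (sq_nonneg _)
    have e1 : ∫ x, ⟪G x, W x⟫ = -((∫ x in ball 0 R, cut δ (u x) * ⟪G x, grad φ x⟫)
        + ∫ x in ball 0 R, φ x * deriv (cut δ) (u x) * ‖G x‖ ^ 2) := by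
      rw [← integral_add hi1 hi2, ← integral_neg,
        ← setIntegral_eq_integral_of_forall_compl_eq_zero (s := ball 0 R)
          fun x hx => by simp [W, downW_eq_zero δ fun h => hx (hR h)]]
      refine integral_congr_ae (Eventually.of_forall fun x => ?_)
      simp only [W, downW, inner_neg_right, inner_add_right, inner_smul_right, real_inner_self_eq_norm_sq]
    have e2 : ∫ x, cut δ (u x) * ⟪G x, grad φ x⟫ = ∫ x in ball 0 R, cut δ (u x) * ⟪G x, grad φ x⟫ :=
      (setIntegral_eq_integral_of_forall_compl_eq_zero fun x hx => by simp [grad_eq_zero fun h => hx (hR h)]).symm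
    have h3 : 0 ≤ ∫ x in ball 0 R, φ x * deriv (cut δ) (u x) * ‖G x‖ ^ 2 :=
      integral_nonneg fun x => mul_nonneg (mul_nonneg (hφ0 x) (deriv_cut_nonneg hδ _)) (sq_nonneg _)
    rw [e1] at hGW
    rw [e2]
    linarith

end Vale.Agent.P098.Reg.AC
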