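import Vale.Agent.P098.Reg.AC.Chain
import Vale.Agent.P098.Reg.Defs

/-! The two one-sided variations give tameness. -/

noncomputable section

namespace Vale.Agent.P098.Reg.AC

open MeasureTheory Set Filter Topology Metric
open scoped ContDiff RealInnerProductSpace

variable {d : ℕ}

/-- A smooth monotone cut at level `δ`. -/
def cut (δ t : ℝ) : ℝ := Real.smoothTransition (t / δ)

/-- Its primitive. -/
def prim (δ t : ℝ) : ℝ := ∫ s in (0 : ℝ)..t, cut δ s

/-- The coordinate gradient. -/
def grad (f : Pt d → ℝ) (x : Pt d) : Pt d := WithLp.toLp 2 fun i => pd i f x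

theorem grad_apply (f : Pt d → ℝ) (x : Pt d) (i : Fin d) : grad f x i = pd i f x := rfl

theorem norm_grad_sq (f : Pt d → ℝ) (x : Pt d) : ‖grad f x‖ ^ 2 = ∑ i, pd i f x ^ 2 := by
  simp [EuclideanSpace.norm_sq_eq, grad, sq_abs]

theorem inner_eq (a b : Pt d) : ⟪a, b⟫ = ∑ i, a i * b i := by
  simp [PiLp.inner_apply, mul_comm]

theorem continuous_grad {φ : Pt d → ℝ} (hφ : ContDiff ℝ ∞ φ) : Continuous (grad φ) := by
  refine (PiLp.continuous_toLp 2 _).comp (continuous_pi fun i => ?_)
  exact (contDiff_pd hφ (m := 0) (by simp)).continuous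

theorem grad_eq_zero {φ : Pt d → ℝ} {x : Pt d} (h : x ∉ tsupport φ) : grad φ x = 0 := by
  ext i
  exact (pd_congr (notMem_tsupport_iff_eventuallyEq.1 h)).trans (pd_const 0)

theorem hasCompactSupport_grad {φ : Pt d → ℝ} (hs : HasCompactSupport φ) : HasCompactSupport (grad φ) :=
  HasCompactSupport.intro hs fun _ hx => grad_eq_zero hx

theorem contDiff_cut {δ : ℝ} : ContDiff ℝ ∞ (cut δ) :=
  (Real.smoothTransition.contDiff (n := ⊤)).comp (contDiff_id.div_const δ)

theorem cut_nonneg (δ t : ℝ) : 0 ≤ cut δ t := Real.smoothTransition.nonneg _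

theorem cut_le_one (δ t : ℝ) : cut δ t ≤ 1 := Real.smoothTransition.le_one _

theorem cut_zero (δ : ℝ) : cut δ 0 = 0 := by simp [cut]

theorem deriv_cut_nonneg {δ : ℝ} (hδ : 0 < δ) (t : ℝ) : 0 ≤ deriv (cut δ) t := by
  have : Monotone (cut δ) := fun a b h =>
    Real.smoothTransition.monotone (div_le_div_of_nonneg_right h hδ.le)
  exact this.deriv_nonneg

theorem deriv_cut_bound (δ : ℝ) (hδ : 0 < δ) : ∃ K, 0 ≤ K ∧ ∀ t, |deriv (cut δ) t| ≤ K := by
  have hc : Continuous (deriv (cut δ)) := (contDiff_cut (δ := δ)).continuous_deriv (by simp)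
  obtain ⟨K, hK⟩ := (isCompact_Icc (a := (0 : ℝ)) (b := δ)).exists_bound_of_continuousOn hc.continuousOn
  refine ⟨max K 0, le_max_right _ _, fun t => ?_⟩
  by_cases ht : t ∈ Icc 0 δ
  · exact (hK t ht).trans (le_max_left _ _)
  · rw [mem_Icc, not_and_or, not_le, not_le] at ht
    rcases ht with ht | ht
    · have : cut δ =ᶠ[𝓝 t] fun _ => (0 : ℝ) := eventually_of_mem (Iio_mem_nhds ht) fun s hs =>
        Real.smoothTransition.zero_of_nonpos (div_nonpos_of_nonpos_of_nonneg (le_of_lt hs) hδ.le)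
      simp [this.deriv_eq]
    · have : cut δ =ᶠ[𝓝 t] fun _ => (1 : ℝ) := eventually_of_mem (Ioi_mem_nhds ht) fun s hs =>
        Real.smoothTransition.one_of_one_le ((one_le_div hδ).2 (le_of_lt hs))
      simp [this.deriv_eq]

theorem cut_le_mul {δ K : ℝ} (hK : ∀ t, |deriv (cut δ) t| ≤ K) {t : ℝ} (ht : 0 ≤ t) :
    cut δ t ≤ K * t := by
  have := Convex.norm_image_sub_le_of_norm_deriv_le (s := univ) (f := cut δ)
    (fun s _ => (contDiff_cut (δ := δ)).differentiable (by simp) s) (C := K) (fun s _ => hK s)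
    convex_univ (mem_univ 0) (mem_univ t)
  rw [cut_zero, sub_zero, sub_zero, Real.norm_of_nonneg (cut_nonneg _ _), Real.norm_of_nonneg ht] at this
  exact this

theorem deriv_prim (δ : ℝ) : deriv (prim δ) = cut δ := by
  funext t
  exact ((contDiff_cut (δ := δ)).continuous.integral_hasStrictDerivAt 0 t).hasDerivAt.deriv

theorem contDiff_prim (δ : ℝ) : ContDiff ℝ 1 (prim δ) := by
  refine contDiff_one_iff_deriv.2 ⟨fun t => ?_, ?_⟩
  · exact ((contDiff_cut (δ := δ)).continuous.integral_hasStrictDerivAt 0 t).hasDerivAt.differentiableAt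
  · rw [deriv_prim]; exact contDiff_cut.continuous

theorem abs_prim_le (δ t : ℝ) : |prim δ t| ≤ |t| := by
  have := intervalIntegral.norm_integral_le_of_norm_le_const (a := (0 : ℝ)) (b := t) (C := 1)
    (f := cut δ) fun s _ => by
      rw [Real.norm_of_nonneg (cut_nonneg _ _)]; exact cut_le_one _ _
  simpa [prim] using this

theorem tendsto_prim {t : ℝ} (ht : 0 ≤ t) :
    Tendsto (fun n : ℕ => prim (1 / ((n : ℝ) + 1)) t) atTop (𝓝 t) := by
  have key : ∀ δ > 0, t - δ ≤ prim δ t ∧ prim δ t ≤ t := by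
    intro δ hδ
    refine ⟨?_, (le_abs_self _).trans ((abs_prim_le δ t).trans_eq (abs_of_nonneg ht))⟩
    have hi : ∀ a b : ℝ, IntervalIntegrable (cut δ) volume a b := fun a b =>
      (contDiff_cut (δ := δ)).continuous.intervalIntegrable a b
    rcases le_or_gt t δ with h | h
    · have : 0 ≤ prim δ t := intervalIntegral.integral_nonneg ht fun s _ => cut_nonneg _ _
      linarith
    · rw [prim, ← intervalIntegral.integral_add_adjacent_intervals (hi 0 δ) (hi δ t)]
      have h1 : 0 ≤ ∫ s in (0 : ℝ)..δ, cut δ s :=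
        intervalIntegral.integral_nonneg hδ.le fun s _ => cut_nonneg _ _
      have h2 : ∫ s in δ..t, cut δ s = t - δ := by
        rw [intervalIntegral.integral_congr (g := fun _ => (1 : ℝ))]
        · simp
        · intro s hs
          rw [uIcc_of_le h.le] at hs
          exact Real.smoothTransition.one_of_one_le ((one_le_div hδ).2 hs.1)
      linarith
  refine tendsto_of_tendsto_of_tendsto_of_le_of_le (g := fun n : ℕ => t - 1 / ((n : ℝ) + 1))
    (h := fun _ => t) ?_ tendsto_const_nhds (fun n => (key _ Nat.one_div_pos_of_nat).1)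
    (fun n => (key _ Nat.one_div_pos_of_nat).2)
  simpa using (tendsto_const_nhds (x := t)).sub (tendsto_one_div_add_atTop_nhds_zero_nat (𝕜 := ℝ))

/-- Membership in the class where both variations are available. -/
structure Vary (u : Pt d → ℝ) (G : Pt d → Pt d) : Prop where
  nonneg : ∀ᵐ x, 0 ≤ u x
  wpd : ∀ i, WeakPd i u (fun x => G x i)
  plus : ∀ φ : Pt d → ℝ, ContDiff ℝ ∞ φ → HasCompactSupport φ → (∀ x, 0 ≤ φ x) → ∀ ε : ℝ, 0 < ε →
    0 ≤ 2 * ε * (∫ x, ⟪G x, grad φ x⟫) + ε ^ 2 * (∫ x, ‖grad φ x‖ ^ 2)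
      + volume.real ({x | u x = 0} ∩ tsupport φ)
  minus : ∀ φ : Pt d → ℝ, ContDiff ℝ ∞ φ → HasCompactSupport φ → (∀ x, 0 ≤ φ x) → ∀ δ : ℝ, 0 < δ →
    ∫ x, cut δ (u x) * ⟪G x, grad φ x⟫ ≤ 0

theorem le_two_sqrt {A B X : ℝ} (hA : 0 ≤ A) (hB : 0 ≤ B)
    (h : ∀ ε : ℝ, 0 < ε → 2 * ε * X ≤ ε ^ 2 * A + B) : X ≤ Real.sqrt A * Real.sqrt B := by
  have key : ∀ η > 0, X ≤ (Real.sqrt A + η) * (Real.sqrt B + η) := by
    intro η hη
    set a := Real.sqrt A + η
    set b := Real.sqrt B + η
    have ha : 0 < a := add_pos_of_nonneg_of_pos (Real.sqrt_nonneg _) hη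
    have hb : 0 < b := add_pos_of_nonneg_of_pos (Real.sqrt_nonneg _) hη
    have hA' : A ≤ a ^ 2 := by nlinarith [Real.sq_sqrt hA, Real.sqrt_nonneg A]
    have hB' : B ≤ b ^ 2 := by nlinarith [Real.sq_sqrt hB, Real.sqrt_nonneg B]
    have h1 := h (b / a) (div_pos hb ha)
    have e : (b / a) ^ 2 * a ^ 2 = b ^ 2 := by field_simp
    have h2 : 2 * (b / a) * X ≤ 2 * (b / a) * (a * b) := by
      have e2 : 2 * (b / a) * (a * b) = 2 * b ^ 2 := by field_simp
      nlinarith [mul_le_mul_of_nonneg_left hA' (sq_nonneg (b / a))]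
    exact le_of_mul_le_mul_left h2 (by positivity)
  refine ge_of_tendsto (x := 𝓝[>] (0 : ℝ)) ?_ (eventually_of_mem self_mem_nhdsWithin key)
  have : Continuous fun η : ℝ => (Real.sqrt A + η) * (Real.sqrt B + η) := by fun_prop
  simpa using (this.tendsto 0).mono_left nhdsWithin_le_nhds

variable {u : Pt d → ℝ} {G : Pt d → Pt d}

theorem Vary.sum_ibp (V : Vary u G) (P : ℝ → ℝ) (hP : ContDiff ℝ 1 P) (K : ℝ) (hK : ∀ t, |deriv P t| ≤ K)
    {φ : Pt d → ℝ} (hφ : ContDiff ℝ ∞ φ) (hs : HasCompactSupport φ) :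
    ∫ x, P (u x) * lap φ x = -∫ x, deriv P (u x) * ⟪G x, grad φ x⟫ := by
  rcases isEmpty_or_nonempty (Fin d) with he | hne
  · simp [lap, inner_eq]
  obtain ⟨i0⟩ := hne
  have hd : ∀ i, ContDiff ℝ ∞ (pd i φ) := fun i => contDiff_pd hφ le_rfl
  have hlu : LocallyIntegrable u := (V.wpd i0).loc
  have hcd := hP.continuous_deriv le_rfl
  have hint : ∀ i, Integrable fun x => deriv P (u x) * G x i * pd i φ x := fun i => by
    refine (((V.wpd i).locg.integrable_smul_right_of_hasCompactSupport (hd i).continuous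
      (hasCompactSupport_pd hs)).norm.const_mul K).mono' (((hcd.comp_aestronglyMeasurable
        hlu.aestronglyMeasurable).mul (V.wpd i).locg.aestronglyMeasurable).mul (hd i).continuous.aestronglyMeasurable)
      (Eventually.of_forall fun x => ?_)
    simp only [norm_mul, Real.norm_eq_abs, smul_eq_mul, mul_assoc]
    exact mul_le_mul_of_nonneg_right (hK _) (by positivity)
  have hint' : ∀ i, Integrable fun x => P (u x) * pd i (pd i φ) x := fun i => by
    have hc : Continuous (pd i (pd i φ)) := (contDiff_pd (hd i) (m := 0) (by simp)).continuous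
    have hb : Integrable fun x => (|P 0| + K * |u x|) * |pd i (pd i φ) x| := by
      simp only [add_mul]
      refine Integrable.add ((continuous_const.mul hc.abs).integrable_of_hasCompactSupport
        (hasCompactSupport_pd (hasCompactSupport_pd hs)).norm.mul_left) ?_
      have hun : LocallyIntegrable fun x => ‖u x‖ := fun x => ((V.wpd i).loc x).norm
      have := (hun.integrable_smul_right_of_hasCompactSupport hc.abs
        (hasCompactSupport_pd (hasCompactSupport_pd hs)).norm).const_mul K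
      simpa [mul_assoc, Real.norm_eq_abs] using this
    refine hb.mono' ((hP.continuous.comp_aestronglyMeasurable hlu.aestronglyMeasurable).mul hc.aestronglyMeasurable)
      (Eventually.of_forall fun x => ?_)
    rw [norm_mul, Real.norm_eq_abs, Real.norm_eq_abs]
    refine mul_le_mul_of_nonneg_right ?_ (abs_nonneg _)
    have := Convex.norm_image_sub_le_of_norm_deriv_le (s := univ) (f := P)
      (fun t _ => hP.differentiable (by simp) t) (C := K) (fun t _ => hK t) convex_univ (mem_univ 0) (mem_univ (u x))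
    simp only [Real.norm_eq_abs, sub_zero] at this
    linarith [abs_sub_abs_le_abs_sub (P (u x)) (P 0)]
  calc ∫ x, P (u x) * lap φ x = ∑ i, ∫ x, P (u x) * pd i (pd i φ) x := by
        simp only [lap, Finset.mul_sum]; exact integral_finsetSum _ fun i _ => hint' i
    _ = ∑ i, -∫ x, deriv P (u x) * G x i * pd i φ x :=
        Finset.sum_congr rfl fun i _ => (V.wpd i).chain hP hK (hd i) (hasCompactSupport_pd hs)
    _ = _ := by
        rw [Finset.sum_neg_distrib, ← integral_finsetSum _ fun i _ => hint i]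
        congr 1
        refine integral_congr_ae (Eventually.of_forall fun x => ?_)
        simp only [inner_eq, Finset.mul_sum, grad_apply, mul_assoc]

theorem Vary.mu_eq (V : Vary u G) {φ : Pt d → ℝ} (hφ : ContDiff ℝ ∞ φ) (hs : HasCompactSupport φ) :
    mu u φ = -∫ x, ⟪G x, grad φ x⟫ := by
  simpa [mu] using V.sum_ibp id contDiff_id 1 (fun t => by simp) hφ hs

theorem Vary.tame [NeZero d] (V : Vary u G) : Tame u where
  loc := (V.wpd 0).loc
  mu_nonneg φ hφ hs h0 := by
    have hlim : Tendsto (fun n : ℕ => ∫ x, prim (1 / ((n : ℝ) + 1)) (u x) * lap φ x) atTop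
        (𝓝 (∫ x, u x * lap φ x)) := by
      have hc : Continuous (lap φ) := continuous_finsetSum _ fun i _ =>
        (contDiff_pd (contDiff_pd (n := ∞) (m := ∞) hφ le_rfl) (m := 0) (by simp)).continuous
      have hcs : HasCompactSupport (lap φ) := HasCompactSupport.intro hs fun x hx => by
        have hev := notMem_tsupport_iff_eventuallyEq.1 hx
        exact Finset.sum_eq_zero fun i _ =>
          (pd_congr (hev.eventuallyEq_nhds.mono fun w hw => (pd_congr hw).trans (pd_const 0))).trans (pd_const 0)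
      have hloc := (V.wpd 0).loc
      refine tendsto_integral_of_dominated_convergence (fun x => |u x * lap φ x|)
        (fun n => ((contDiff_prim _).continuous.comp_aestronglyMeasurable hloc.aestronglyMeasurable).mul
          hc.aestronglyMeasurable) (hloc.integrable_smul_right_of_hasCompactSupport hc hcs).abs
        (fun n => Eventually.of_forall fun x => ?_) ?_
      · rw [norm_mul, Real.norm_eq_abs, Real.norm_eq_abs, abs_mul]
        exact mul_le_mul_of_nonneg_right (abs_prim_le _ _) (abs_nonneg _)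
      · filter_upwards [V.nonneg] with x hx
        exact (tendsto_prim hx).mul_const _
    refine ge_of_tendsto hlim (Eventually.of_forall fun n => ?_)
    have hδ : (0 : ℝ) < 1 / ((n : ℝ) + 1) := Nat.one_div_pos_of_nat
    rw [V.sum_ibp _ (contDiff_prim _) 1 (fun t => by
      rw [deriv_prim, abs_of_nonneg (cut_nonneg _ _)]; exact cut_le_one _ _) hφ hs, deriv_prim]
    have := V.minus φ hφ hs h0 _ hδ
    linarith
  mu_le φ hφ hs h0 := by
    have e : ∫ y, ∑ i, pd i φ y ^ 2 = ∫ y, ‖grad φ y‖ ^ 2 :=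
      integral_congr_ae (Eventually.of_forall fun y => (norm_grad_sq φ y).symm)
    rw [e, V.mu_eq hφ hs]
    refine le_two_sqrt (integral_nonneg fun y => by positivity) measureReal_nonneg fun ε hε => ?_
    have := V.plus φ hφ hs h0 ε hε
    nlinarith

end Vale.Agent.P098.Reg.AC
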